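import Mathlib

/-!
Kaplansky's theorem: a direct summand of a direct sum of copies of a module with at most `l`
elements is a direct sum of submodules with at most `l` elements.
-/

universe u

open Cardinal

namespace Vale.Agent.P307.H431.Kap

section Card

variable {α : Type u} {l : Cardinal.{u}}

theorem mk_finset_le (hl : ℵ₀ ≤ l) (h : #α ≤ l) : #(Finset α) ≤ l := by
  rcases finite_or_infinite α with hα | hα
  · exact (Cardinal.mk_le_aleph0 (α := Finset α)).trans hl
  · rw [Cardinal.mk_finset_of_infinite]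
    exact h

theorem mk_finsupp_le {M : Type u} [Zero M] (hl : ℵ₀ ≤ l) (h : #α ≤ l) (hM : #M ≤ l) :
    #(α →₀ M) ≤ l := by
  refine (Cardinal.mk_le_of_injective (Finsupp.graph_injective α M)).trans (mk_finset_le hl ?_)
  rw [Cardinal.mk_prod, Cardinal.lift_id, Cardinal.lift_id]
  exact (mul_le_mul' h hM).trans (Cardinal.mul_eq_self hl).le

theorem mk_iUnion_le' {ι : Type u} (hl : ℵ₀ ≤ l) (hι : #ι ≤ l) (f : ι → Set α)
    (h : ∀ i, #(f i) ≤ l) : #(⋃ i, f i) ≤ l := by
  refine (Cardinal.mk_iUnion_le f).trans ?_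
  exact (mul_le_mul' hι (ciSup_le' h)).trans (Cardinal.mul_eq_self hl).le

end Card

section Closure

variable {I : Type u} (r : I → I → Prop)

/-- The points reached from `i` in `n` steps. -/
def level (i : I) : ℕ → Set I
  | 0 => {i}
  | n + 1 => ⋃ j : level i n, {k | r j k}

/-- The points reached from `i`. -/
def cl (i : I) : Set I := ⋃ n : ULift.{u} ℕ, level r i n.down

theorem self_mem_cl (i : I) : i ∈ cl r i := Set.mem_iUnion.2 ⟨⟨0⟩, rfl⟩

theorem cl_closed (i : I) {j k : I} (hj : j ∈ cl r i) (h : r j k) : k ∈ cl r i := by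
  obtain ⟨⟨n⟩, hn⟩ := Set.mem_iUnion.1 hj
  exact Set.mem_iUnion.2 ⟨⟨n + 1⟩, Set.mem_iUnion.2 ⟨⟨j, hn⟩, h⟩⟩

theorem mk_cl_le {l : Cardinal.{u}} (hl : ℵ₀ ≤ l) (hr : ∀ j, #{k | r j k} ≤ l) (i : I) :
    #(cl r i) ≤ l := by
  refine mk_iUnion_le' hl ?_ _ ?_
  · simpa using hl
  · rintro ⟨n⟩
    induction n with
    | zero =>
      change #({i} : Set I) ≤ l
      rw [Cardinal.mk_singleton]
      exact Cardinal.one_le_aleph0.trans hl
    | succ n ih => exact mk_iUnion_le' hl ih _ fun j => hr j

end Closure

section Main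

variable {R : Type u} [Ring R] {M N : Type u} [AddCommGroup M] [Module R M] [AddCommGroup N]
  [Module R N] {I : Type u}

/-- One step of the reachability relation. -/
def Step (iota : N →ₗ[R] (I →₀ M)) (pi : (I →₀ M) →ₗ[R] N) (i j : I) : Prop :=
  ∃ m : M, j ∈ (iota (pi (Finsupp.single i m))).support

theorem mk_step_le {l : Cardinal.{u}} (hl : ℵ₀ ≤ l) (hM : #M ≤ l)
    (iota : N →ₗ[R] (I →₀ M)) (pi : (I →₀ M) →ₗ[R] N) (i : I) :
    #{j | Step iota pi i j} ≤ l := by
  have h : {j | Step iota pi i j} =
      ⋃ m : M, ((iota (pi (Finsupp.single i m))).support : Set I) := by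
    ext j
    simp [Step]
  rw [h]
  refine mk_iUnion_le' hl hM _ fun m => ?_
  exact (Cardinal.lt_aleph0_of_finite _).le.trans hl

theorem sum_single_mem {P : Submodule R N} (pi : (I →₀ M) →ₗ[R] N) (f : I →₀ M)
    (h : ∀ i ∈ f.support, pi (Finsupp.single i (f i)) ∈ P) : pi f ∈ P := by
  have h1 : f = ∑ i ∈ f.support, Finsupp.single i (f i) := (Finsupp.sum_single f).symm
  rw [h1, map_sum]
  exact Submodule.sum_mem _ h

theorem supported_of_closed {iota : N →ₗ[R] (I →₀ M)} {pi : (I →₀ M) →ₗ[R] N} {X : Set I}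
    (hX : ∀ j ∈ X, ∀ k, Step iota pi j k → k ∈ X) {f : I →₀ M}
    (hf : f ∈ Finsupp.supported M R X) : iota (pi f) ∈ Finsupp.supported M R X := by
  have h1 := sum_single_mem (P := (Finsupp.supported M R X).comap iota) pi f ?_
  · exact h1
  · intro i hi
    rw [Submodule.mem_comap, Finsupp.mem_supported]
    intro k hk
    exact hX i (hf hi) k ⟨f i, hk⟩

open Classical in
theorem kaplansky_aux {l : Cardinal.{u}} (hl : ℵ₀ ≤ l) (hM : #M ≤ l)
    (iota : N →ₗ[R] (I →₀ M)) (pi : (I →₀ M) →ₗ[R] N) (h : pi ∘ₗ iota = LinearMap.id) :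
    ∃ C : I → Submodule R N, (∀ i, #(C i) ≤ l) ∧ iSupIndep C ∧ iSup C = ⊤ := by
  obtain ⟨_, hwf⟩ := exists_wellFoundedLT I
  have hpi : ∀ x, pi (iota x) = x := fun x => by
    have := congrArg (fun g => g x) h
    simpa using this
  set c : I → Set I := fun i => cl (Step iota pi) i with hc
  have hccl : ∀ i, ∀ j ∈ c i, ∀ k, Step iota pi j k → k ∈ c i := fun i j hj k hk =>
    cl_closed _ i hj hk
  set D : I → Set I := fun i => ⋃ j : {j // j < i}, c j with hD
  set E : I → Set I := fun i => D i ∪ c i with hE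
  have hDcl : ∀ i, ∀ j ∈ D i, ∀ k, Step iota pi j k → k ∈ D i := fun i j hj k hk => by
    obtain ⟨a, ha⟩ := Set.mem_iUnion.1 hj
    exact Set.mem_iUnion.2 ⟨a, hccl _ j ha k hk⟩
  have hED : ∀ j i, j < i → E j ⊆ D i := fun j i hji k hk => by
    rcases hk with hk | hk
    · obtain ⟨a, ha⟩ := Set.mem_iUnion.1 hk
      exact Set.mem_iUnion.2 ⟨⟨a, a.2.trans hji⟩, ha⟩
    · exact Set.mem_iUnion.2 ⟨⟨j, hji⟩, hk⟩
  -- the projections
  set rho : I → (I →₀ M) →ₗ[R] (I →₀ M) := fun i =>
    (Finsupp.supported M R (D i)).subtype ∘ₗ Finsupp.restrictDom M R (D i) with hrho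
  have hrho1 : ∀ i f, rho i f ∈ Finsupp.supported M R (D i) := fun i f =>
    (Finsupp.restrictDom M R (D i) f).2
  have hrho2 : ∀ i f, f ∈ Finsupp.supported M R (D i) → rho i f = f := fun i f hf => by
    have h1 := congrArg (fun g => (g ⟨f, hf⟩ : Finsupp.supported M R (D i)))
      (Finsupp.restrictDom_comp_subtype (M := M) (R := R) (D i))
    exact congrArg Subtype.val h1
  set q : I → N →ₗ[R] N := fun i => pi ∘ₗ rho i ∘ₗ iota with hq
  set P : I → Submodule R N := fun i => (Finsupp.supported M R (D i)).map pi with hP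
  set Q : I → Submodule R N := fun i => (Finsupp.supported M R (E i)).map pi with hQ
  have hqP : ∀ i x, q i x ∈ P i := fun i x => ⟨_, hrho1 i _, rfl⟩
  have hqid : ∀ i x, x ∈ P i → q i x = x := by
    rintro i _ ⟨f, hf, rfl⟩
    change pi (rho i (iota (pi f))) = pi f
    rw [hrho2 i _ (supported_of_closed (hDcl i) hf), hpi]
  have hPQ : ∀ i, P i ≤ Q i := fun i =>
    Submodule.map_mono (Finsupp.supported_mono Set.subset_union_left)
  have hQP : ∀ j i, j < i → Q j ≤ P i := fun j i hji =>
    Submodule.map_mono (Finsupp.supported_mono (hED j i hji))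
  set C : I → Submodule R N := fun i => Q i ⊓ LinearMap.ker (q i) with hC
  refine ⟨C, fun i => ?_, ?_⟩
  · -- cardinality
    set T : (c i →₀ M) → N := fun g =>
      pi (Finsupp.embDomain (Function.Embedding.subtype _) g) -
        q i (pi (Finsupp.embDomain (Function.Embedding.subtype _) g)) with hT
    have hcard : #(c i →₀ M) ≤ l :=
      mk_finsupp_le hl (mk_cl_le _ hl (mk_step_le hl hM iota pi) i) hM
    have hsub : (C i : Set N) ⊆ Set.range T := by
      rintro x ⟨⟨f, hf, rfl⟩, hx⟩
      have hx0 : q i (pi f) = 0 := hx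
      set f2 : I →₀ M := f - rho i f with hf2
      have hf2s : (f2.support : Set I) ⊆ c i := by
        intro k hk
        have hk1 : f2 k ≠ 0 := by simpa using hk
        by_contra hkc
        apply hk1
        by_cases hkD : k ∈ D i
        · rw [hf2, Finsupp.sub_apply]
          have : rho i f k = f k := by
            change (Finsupp.restrictDom M R (D i) f : I →₀ M) k = f k
            rw [Finsupp.restrictDom_apply, Finsupp.filter_apply_pos _ _ hkD]
          rw [this, sub_self]
        · have h1 : f k = 0 := by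
            by_contra h2
            rcases hf (Finsupp.mem_support_iff.2 h2) with h3 | h3
            · exact hkD h3
            · exact hkc h3
          have h2 : rho i f k = 0 := by
            change (Finsupp.restrictDom M R (D i) f : I →₀ M) k = 0
            rw [Finsupp.restrictDom_apply, Finsupp.filter_apply_neg _ _ hkD]
          rw [hf2, Finsupp.sub_apply, h1, h2, sub_self]
      set g : c i →₀ M := Finsupp.comapDomain Subtype.val f2 Subtype.val_injective.injOn with hg
      have hgf : Finsupp.embDomain (Function.Embedding.subtype _) g = f2 := by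
        ext k
        by_cases hk : k ∈ c i
        · have := Finsupp.embDomain_apply_self (Function.Embedding.subtype (· ∈ c i)) g ⟨k, hk⟩
          simpa [hg] using this
        · rw [Finsupp.embDomain_of_notMem_range]
          · by_contra h1
            exact hk (hf2s (Finsupp.mem_support_iff.2 (Ne.symm h1)))
          · rintro ⟨⟨a, ha⟩, hak⟩
            exact hk (by rw [← hak]; exact ha)
      refine ⟨g, ?_⟩
      change pi (Finsupp.embDomain (Function.Embedding.subtype _) g) -
        q i (pi (Finsupp.embDomain (Function.Embedding.subtype _) g)) = pi f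
      rw [hgf, hf2, map_sub, map_sub, hx0,
        hqid i (pi (rho i f)) ⟨_, hrho1 i f, rfl⟩]
      simp
    exact (Cardinal.mk_le_mk_of_subset hsub).trans (Cardinal.mk_range_le.trans hcard)
  · constructor
    · -- independence
      refine iSupIndep_of_dfinsupp_lsum_injective C ?_
      rw [injective_iff_map_eq_zero]
      intro y hy
      by_contra hne
      have hs : y.support.Nonempty := by
        rw [Finset.nonempty_iff_ne_empty]
        intro h0
        exact hne (DFinsupp.support_eq_empty.1 h0)
      set i := y.support.max' hs with hi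
      have hi1 : i ∈ y.support := Finset.max'_mem _ _
      have hsum : ∑ j ∈ y.support, (y j : N) = 0 := by
        have := hy
        rw [DFinsupp.lsum_apply_apply, DFinsupp.sumAddHom_apply] at this
        simpa [DFinsupp.sum] using this
      rw [← Finset.add_sum_erase _ _ hi1] at hsum
      have hyi : (y i : N) ∈ P i := by
        have h1 : (y i : N) = -∑ j ∈ y.support.erase i, (y j : N) := eq_neg_of_add_eq_zero_left hsum
        rw [h1]
        refine neg_mem (Submodule.sum_mem _ fun j hj => ?_)
        have hj1 := Finset.mem_erase.1 hj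
        have hj2 : j < i := lt_of_le_of_ne (Finset.le_max' _ _ hj1.2) hj1.1
        exact hQP j i hj2 (y j).2.1
      have h2 : (y i : N) = 0 := by
        rw [← hqid i _ hyi]
        exact (y i).2.2
      exact (DFinsupp.mem_support_iff.1 hi1) (Subtype.ext h2)
    · -- generation
      set S : Submodule R N := ⨆ i, C i with hS
      have hQS : ∀ i, Q i ≤ S := by
        intro i
        induction i using hwf.induction with
        | _ i ih =>
          have hPS : P i ≤ S := by
            rintro _ ⟨f, hf, rfl⟩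
            refine sum_single_mem pi f fun k hk => ?_
            obtain ⟨⟨j, hj⟩, hkj⟩ := Set.mem_iUnion.1 (hf hk)
            exact ih j hj ⟨_, Finsupp.single_mem_supported R _ (Or.inr hkj), rfl⟩
          intro x hx
          have h1 : x - q i x ∈ C i := by
            refine ⟨Submodule.sub_mem _ hx (hPQ i (hqP i x)), LinearMap.mem_ker.2 ?_⟩
            rw [map_sub, hqid i _ (hqP i x), sub_self]
          have h2 : x = (x - q i x) + q i x := by abel
          rw [h2]
          exact Submodule.add_mem _ (Submodule.mem_iSup_of_mem i h1) (hPS (hqP i x))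
      rw [eq_top_iff]
      intro x _
      rw [← hpi x]
      refine sum_single_mem pi (iota x) fun k _ => ?_
      exact hQS k ⟨_, Finsupp.single_mem_supported R _ (Or.inr (self_mem_cl _ k)), rfl⟩

open Classical in
/-- Kaplansky's theorem. -/
theorem kaplansky {l : Cardinal.{u}} (hl : ℵ₀ ≤ l) (hM : #M ≤ l)
    (iota : N →ₗ[R] (I →₀ M)) (pi : (I →₀ M) →ₗ[R] N) (h : pi ∘ₗ iota = LinearMap.id) :
    ∃ C : I → Submodule R N, (∀ i, #(C i) ≤ l) ∧ DirectSum.IsInternal C := by
  obtain ⟨C, h1, h2, h3⟩ := kaplansky_aux hl hM iota pi h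
  exact ⟨C, h1, (DirectSum.isInternal_submodule_iff_iSupIndep_and_iSup_eq_top C).2 ⟨h2, h3⟩⟩

end Main

end Vale.Agent.P307.H431.Kap
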