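import Vale.Agent.P307.H304.Kueker

/-!
Structures whose cardinality has cofinality `ω`: back-and-forth systems give isomorphisms.
-/

universe u

open FirstOrder Cardinal Set

namespace Vale.Agent.P307.H431

open Vale.Agent.P307.H304

variable {L : Language.{u, u}} {M N : Type u} [L.Structure M] [L.Structure N]

/-- Karp: a position of a back-and-forth system extends to an isomorphism, if the cardinality of
the structures has cofinality `ω`. -/
theorem exists_equiv_of_sys {θ : Cardinal.{u}} (hθ0 : ℵ₀ ≤ θ) (hθ : θ.ord.cof = ℵ₀)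
    (hM : #M = θ) (hN : #N = θ) {F : Set (Set (M × N))} (hF : IsSys L θ F) {R : Set (M × N)}
    (hR : R ∈ F) : ∃ e : M ≃[L] N, ∀ p ∈ R, e p.1 = p.2 := by
  obtain ⟨A, hA1, hA2, hA3⟩ := exists_filtration hM hθ0 hθ
  obtain ⟨B, hB1, hB2, hB3⟩ := exists_filtration hN hθ0 hθ
  have step : ∀ (n : ℕ) (R : {R : Set (M × N) // R ∈ F}), ∃ R' : {R : Set (M × N) // R ∈ F},
      R.1 ⊆ R'.1 ∧ (∀ x ∈ A n, ∃ y, (x, y) ∈ R'.1) ∧ (∀ y ∈ B n, ∃ x, (x, y) ∈ R'.1) := by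
    rintro n ⟨R, hR⟩
    obtain ⟨R₁, h1, h2, h3⟩ := hF.forth R hR (A n) (hA2 n)
    obtain ⟨R₂, h4, h5, h6⟩ := hF.back R₁ h1 (B n) (hB2 n)
    refine ⟨⟨R₂, h4⟩, h2.trans h5, fun x hx => ?_, h6⟩
    obtain ⟨y, hy⟩ := h3 x hx
    exact ⟨y, h5 hy⟩
  choose next hn1 hn2 hn3 using step
  let seq : ℕ → {R : Set (M × N) // R ∈ F} := fun n => Nat.rec ⟨R, hR⟩ (fun n R => next n R) n
  have hmono : Monotone fun n => (seq n).1 := monotone_nat_of_le_succ fun n => hn1 n (seq n)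
  have hPI : IsPI L (⋃ n, (seq n).1) := by
    have hfin : ∀ {k : ℕ} (x : Fin k → M × N) (q : M × N), (∀ i, x i ∈ ⋃ n, (seq n).1) →
        q ∈ ⋃ n, (seq n).1 → ∃ n, (∀ i, x i ∈ (seq n).1) ∧ q ∈ (seq n).1 := by
      intro k x q hx hq
      choose g hg using fun i => mem_iUnion.1 (hx i)
      obtain ⟨m, hm⟩ := mem_iUnion.1 hq
      refine ⟨max m (Finset.univ.sup g), fun i => ?_, hmono (le_max_left _ _) hm⟩
      exact hmono ((Finset.le_sup (Finset.mem_univ i)).trans (le_max_right _ _)) (hg i)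
    constructor
    · intro p hp q hq
      obtain ⟨n, h1, h2⟩ := hfin (k := 1) (fun _ => p) q (fun _ => hp) hq
      exact (hF.isPI _ (seq n).2).eq_iff p (h1 0) q h2
    · intro k f x hx q hq
      obtain ⟨n, h1, h2⟩ := hfin x q hx hq
      exact (hF.isPI _ (seq n).2).fun_iff f x h1 q h2
    · intro k r x hx
      obtain ⟨n, h1⟩ : ∃ n, ∀ i, x i ∈ (seq n).1 := by
        choose g hg using fun i => mem_iUnion.1 (hx i)
        exact ⟨Finset.univ.sup g, fun i => hmono (Finset.le_sup (Finset.mem_univ i)) (hg i)⟩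
      exact (hF.isPI _ (seq n).2).rel_iff r x h1
  obtain ⟨e, he⟩ := hPI.exists_equiv
    (fun x => by
      obtain ⟨n, hn⟩ := hA3 x
      obtain ⟨y, hy⟩ := hn2 n (seq n) x hn
      exact ⟨y, mem_iUnion.2 ⟨n + 1, hy⟩⟩)
    (fun y => by
      obtain ⟨n, hn⟩ := hB3 y
      obtain ⟨x, hx⟩ := hn3 n (seq n) y hn
      exact ⟨x, mem_iUnion.2 ⟨n + 1, hx⟩⟩)
  refine ⟨e, fun p hp => ?_⟩
  have h1 : p ∈ ⋃ n, (seq n).1 := mem_iUnion.2 ⟨0, hp⟩
  exact ((hPI.eq_iff _ (he p.1) _ h1).1 rfl)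

/-- Structures of size `θ`, `cof θ = ω`: tuples with the same `L_{∞,θ}`-type correspond under an
isomorphism. -/
theorem exists_equiv_of_sat {θ : Cardinal.{u}} (hθ0 : ℵ₀ ≤ θ) (hθ : θ.ord.cof = ℵ₀)
    (hM : #M = θ) (hN : #N = θ) {X : Type u} (hX : #X < θ) {v : X → M} {w : X → N}
    (h : ∀ φ : Fml L θ X, φ.Sat v ↔ φ.Sat w) : ∃ e : M ≃[L] N, ∀ x, e (v x) = w x := by
  obtain ⟨e, he⟩ := exists_equiv_of_sys hθ0 hθ hM hN (isSys_satSys (L := L) hθ0)
    (R := Set.range fun x => (v x, w x)) ⟨X, v, w, hX, rfl, h⟩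
  exact ⟨e, fun x => he _ ⟨x, rfl⟩⟩

end Vale.Agent.P307.H431
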