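import Vale.Agent.P307.Bdl.B1

/-!
Structures with equivalence relations: the classes as additional points.
-/

universe u

open FirstOrder Cardinal Set

namespace Vale.Agent.P307.H431.Lam

open Language Structure

/-- the relation symbols of the vocabulary with points for the classes -/
def SR (L : Language.{u, u}) : ℕ → Type u
  | 0 => L.Relations 0
  | 1 => L.Relations 1 ⊕ L.Relations 2
  | 2 => L.Relations 2
  | (_ + 3) => PEmpty

/-- the vocabulary with points for the classes -/
def SL (L : Language.{u, u}) : Language.{u, u} := ⟨fun _ => PEmpty, SR L⟩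

instance (L : Language.{u, u}) : (SL L).IsRelational :=
  fun _ => (inferInstance : IsEmpty PEmpty)

variable {L : Language.{u, u}}

def r0 (R : L.Relations 0) : (SL L).Relations 0 := R
def r1 (R : L.Relations 1) : (SL L).Relations 1 := Sum.inl R
def rc (E : L.Relations 2) : (SL L).Relations 1 := Sum.inr E
def r2 (E : L.Relations 2) : (SL L).Relations 2 := E

lemma sr_cases {C : ∀ n : ℕ, (SL L).Relations n → Prop} (h0 : ∀ R, C 0 (r0 R))
    (h1 : ∀ R, C 1 (r1 R)) (hc : ∀ E, C 1 (rc E)) (h2 : ∀ E, C 2 (r2 E)) :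
    ∀ n (R : (SL L).Relations n), C n R := by
  intro n R
  match n, R with
  | 0, R => exact h0 R
  | 1, Sum.inl R => exact h1 R
  | 1, Sum.inr E => exact hc E
  | 2, E => exact h2 E

lemma vec0 {A : Type*} (v w : Fin 0 → A) : v = w := funext fun i => i.elim0

lemma vec1 {A : Type*} (v : Fin 1 → A) : v = ![v 0] := by
  funext i
  rw [Fin.fin_one_eq_zero i]
  rfl

lemma vec2 {A : Type*} (v : Fin 2 → A) : v = ![v 0, v 1] := by
  funext i
  refine Fin.cases rfl (fun i => ?_) i
  refine Fin.cases rfl (fun i => i.elim0) i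

lemma comp1 {A B : Type*} (f : A → B) (a : A) : f ∘ ![a] = ![f a] := by
  funext i
  rw [Fin.fin_one_eq_zero i]
  rfl

lemma comp2 {A B : Type*} (f : A → B) (a b : A) : f ∘ ![a, b] = ![f a, f b] := by
  funext i
  refine Fin.cases rfl (fun i => ?_) i
  refine Fin.cases rfl (fun i => i.elim0) i

/-- isomorphisms in the new vocabulary -/
def mkS {A B : Type u} [(SL L).Structure A] [(SL L).Structure B] (e : A ≃ B)
    (h0 : ∀ (R : L.Relations 0) (v : Fin 0 → A), RelMap (r0 R) (e ∘ v) ↔ RelMap (r0 R) v)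
    (h1 : ∀ (R : L.Relations 1) (a : A), RelMap (r1 R) ![e a] ↔ RelMap (r1 R) ![a])
    (hc : ∀ (E : L.Relations 2) (a : A), RelMap (rc E) ![e a] ↔ RelMap (rc E) ![a])
    (h2 : ∀ (E : L.Relations 2) (a b : A), RelMap (r2 E) ![e a, e b] ↔ RelMap (r2 E) ![a, b]) :
    A ≃[SL L] B where
  toEquiv := e
  map_fun' := fun f => PEmpty.elim f
  map_rel' := by
    intro n R x
    revert x
    refine sr_cases (C := fun n R => ∀ x : Fin n → A,
      RelMap R (e.toFun ∘ x) ↔ RelMap R x) ?_ ?_ ?_ ?_ n R
    · intro R x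
      exact h0 R x
    · intro R x
      rw [vec1 x, comp1]
      exact h1 R (x 0)
    · intro R x
      rw [vec1 x, comp1]
      exact hc R (x 0)
    · intro R x
      rw [vec2 x, comp2]
      exact h2 R (x 0) (x 1)

/-- isomorphisms in a relational vocabulary -/
def mkL [L.IsRelational] {A B : Type u} [L.Structure A] [L.Structure B] (e : A ≃ B)
    (h0 : ∀ (R : L.Relations 0) (v : Fin 0 → A), RelMap R (e ∘ v) ↔ RelMap R v)
    (h1 : ∀ (R : L.Relations 1) (a : A), RelMap R ![e a] ↔ RelMap R ![a])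
    (h2 : ∀ (R : L.Relations 2) (a b : A), RelMap R ![e a, e b] ↔ RelMap R ![a, b])
    (h3 : ∀ (n : ℕ) (R : L.Relations (n + 3)) (v : Fin (n + 3) → A),
      RelMap R (e ∘ v) ↔ RelMap R v) :
    A ≃[L] B where
  toEquiv := e
  map_fun' := fun f => isEmptyElim f
  map_rel' := by
    intro n R x
    match n, R, x with
    | 0, R, x => exact h0 R x
    | 1, R, x =>
      change RelMap R (e ∘ x) ↔ RelMap R x
      rw [vec1 x, comp1]
      exact h1 R (x 0)
    | 2, R, x =>
      change RelMap R (e ∘ x) ↔ RelMap R x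
      rw [vec2 x, comp2]
      exact h2 R (x 0) (x 1)
    | n + 3, R, x => exact h3 n R x

section

variable {N N' : Type u} [(SL L).Structure N] [(SL L).Structure N']

/-- `c` is the `E`-class of `x` -/
def In (E : L.Relations 2) (x c : N) : Prop := RelMap (r2 E) ![x, c]

/-- `c` is an `E`-class -/
def Cl (E : L.Relations 2) (c : N) : Prop := RelMap (rc E) ![c]

/-- `x` is not a class -/
def Home (L : Language.{u, u}) {N : Type u} [(SL L).Structure N] (x : N) : Prop :=
  ∀ E : L.Relations 2, ¬ Cl E x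

/-- the structures with points for the classes -/
structure Std (L : Language.{u, u}) (N : Type u) [(SL L).Structure N] : Prop where
  ex : ∀ (E : L.Relations 2) (x : N), Home L x → ∃ c, In E x c
  un : ∀ (E : L.Relations 2) (x c c' : N), In E x c → In E x c' → c = c'
  home : ∀ (E : L.Relations 2) (x c : N), In E x c → Home L x
  cl : ∀ (E : L.Relations 2) (x c : N), In E x c → Cl E c
  sur : ∀ (E : L.Relations 2) (c : N), Cl E c → ∃ x, In E x c
  sort : ∀ (E F : L.Relations 2) (c : N), Cl E c → Cl F c → E = F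
  una : ∀ (R : L.Relations 1) (x : N), RelMap (r1 R) ![x] → Home L x

/-- the points which are not classes -/
abbrev Hm (L : Language.{u, u}) (N : Type u) [(SL L).Structure N] : Type u :=
  {x : N // Home L x}

def hmRel (N : Type u) [(SL L).Structure N] : ∀ {n : ℕ}, L.Relations n → (Fin n → Hm L N) → Prop
  | 0, R, v => RelMap (r0 R) (fun i => (v i).1)
  | 1, R, v => RelMap (r1 R) ![(v 0).1]
  | 2, E, v => ∃ c : N, In E (v 0).1 c ∧ In E (v 1).1 c
  | _ + 3, _, _ => False

instance hmStr [L.IsRelational] : L.Structure (Hm L N) where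
  funMap := fun f _ => isEmptyElim f
  RelMap := fun R v => hmRel N R v

variable [L.IsRelational]

lemma hm0 (R : L.Relations 0) (v : Fin 0 → Hm L N) :
    RelMap R v ↔ RelMap (r0 R) (fun i => (v i).1) := Iff.rfl

lemma hm1 (R : L.Relations 1) (x : Hm L N) : RelMap R ![x] ↔ RelMap (r1 R) ![x.1] := Iff.rfl

lemma hm2 (E : L.Relations 2) (x y : Hm L N) :
    RelMap E ![x, y] ↔ ∃ c : N, In E x.1 c ∧ In E y.1 c := Iff.rfl

lemma hm3 {n : ℕ} (R : L.Relations (n + 3)) (v : Fin (n + 3) → Hm L N) :
    ¬ RelMap R v := fun h => h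

end

section

variable {N N' : Type u} [(SL L).Structure N] [(SL L).Structure N']

lemma iso_in (e : N ≃[SL L] N') (E : L.Relations 2) (x c : N) : In E (e x) (e c) ↔ In E x c := by
  have h := e.map_rel (r2 E) ![x, c]
  rw [comp2] at h
  exact h

lemma iso_cl (e : N ≃[SL L] N') (E : L.Relations 2) (c : N) : Cl E (e c) ↔ Cl E c := by
  have h := e.map_rel (rc E) ![c]
  rw [comp1] at h
  exact h

lemma iso_r1 (e : N ≃[SL L] N') (R : L.Relations 1) (c : N) :
    RelMap (r1 R) ![e c] ↔ RelMap (r1 R) ![c] := by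
  have h := e.map_rel (r1 R) ![c]
  rw [comp1] at h
  exact h

lemma iso_home (e : N ≃[SL L] N') (x : N) : Home L (e x) ↔ Home L x :=
  forall_congr' fun E => not_congr (iso_cl e E x)

lemma Std.iso (h : Std L N) (e : N ≃[SL L] N') : Std L N' where
  ex := by
    intro E x hx
    obtain ⟨x, rfl⟩ := e.surjective x
    obtain ⟨c, hc⟩ := h.ex E x ((iso_home e x).1 hx)
    exact ⟨e c, (iso_in e E x c).2 hc⟩
  un := by
    intro E x c c' h1 h2
    obtain ⟨x, rfl⟩ := e.surjective x
    obtain ⟨c, rfl⟩ := e.surjective c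
    obtain ⟨c', rfl⟩ := e.surjective c'
    rw [iso_in] at h1 h2
    rw [h.un E x c c' h1 h2]
  home := by
    intro E x c h1
    obtain ⟨x, rfl⟩ := e.surjective x
    obtain ⟨c, rfl⟩ := e.surjective c
    rw [iso_in] at h1
    exact (iso_home e x).2 (h.home E x c h1)
  cl := by
    intro E x c h1
    obtain ⟨x, rfl⟩ := e.surjective x
    obtain ⟨c, rfl⟩ := e.surjective c
    rw [iso_in] at h1
    exact (iso_cl e E c).2 (h.cl E x c h1)
  sur := by
    intro E c h1
    obtain ⟨c, rfl⟩ := e.surjective c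
    obtain ⟨x, hx⟩ := h.sur E c ((iso_cl e E c).1 h1)
    exact ⟨e x, (iso_in e E x c).2 hx⟩
  sort := by
    intro E F c h1 h2
    obtain ⟨c, rfl⟩ := e.surjective c
    exact h.sort E F c ((iso_cl e E c).1 h1) ((iso_cl e F c).1 h2)
  una := by
    intro R x h1
    obtain ⟨x, rfl⟩ := e.surjective x
    exact (iso_home e x).2 (h.una R x ((iso_r1 e R x).1 h1))

variable [L.IsRelational]

/-- the isomorphism of the parts which are not classes -/
def hmIso (e : N ≃[SL L] N') : Hm L N ≃[L] Hm L N' :=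
  mkL (e.toEquiv.subtypeEquiv fun x => (iso_home e x).symm)
    (by
      intro R v
      rw [hm0, hm0]
      have h := e.map_rel (r0 R) (fun i => (v i).1)
      exact h)
    (by
      intro R a
      rw [hm1, hm1]
      exact iso_r1 e R a.1)
    (by
      intro E a b
      rw [hm2, hm2]
      constructor
      · rintro ⟨c, h1, h2⟩
        obtain ⟨c, rfl⟩ := e.surjective c
        exact ⟨c, (iso_in e E a.1 c).1 h1, (iso_in e E b.1 c).1 h2⟩
      · rintro ⟨c, h1, h2⟩
        exact ⟨e c, (iso_in e E a.1 c).2 h1, (iso_in e E b.1 c).2 h2⟩)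
    (by
      intro n R v
      exact iff_of_false (hm3 R _) (hm3 R _))

lemma hmIso_coe (e : N ≃[SL L] N') (x : Hm L N) : (hmIso e x).1 = e x.1 := rfl

/-- the part of a substructure which consists of points which are not classes -/
def hs (S : (SL L).Substructure N) : L.Substructure (Hm L N) where
  carrier := {x | x.1 ∈ S}
  fun_mem := fun f => isEmptyElim f

lemma mem_hs {S : (SL L).Substructure N} {x : Hm L N} : x ∈ hs S ↔ x.1 ∈ S := Iff.rfl

/-- closed substructures -/
structure Clo (S : (SL L).Substructure N) : Prop where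
  up : ∀ (E : L.Relations 2) (x c : N), x ∈ S → In E x c → c ∈ S
  dn : ∀ (E : L.Relations 2) (c : N), c ∈ S → Cl E c → ∃ x ∈ S, In E x c

omit [L.IsRelational] in
lemma sub_in (S : (SL L).Substructure N) (E : L.Relations 2) (x c : S) :
    In E x c ↔ In E x.1 c.1 := by
  change RelMap (r2 E) (Subtype.val ∘ ![x, c]) ↔ _
  rw [comp2]
  rfl

omit [L.IsRelational] in
lemma sub_cl (S : (SL L).Substructure N) (E : L.Relations 2) (c : S) :
    Cl E c ↔ Cl E c.1 := by
  change RelMap (rc E) (Subtype.val ∘ ![c]) ↔ _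
  rw [comp1]
  rfl

omit [L.IsRelational] in
lemma sub_r1 (S : (SL L).Substructure N) (R : L.Relations 1) (c : S) :
    RelMap (r1 R) ![c] ↔ RelMap (r1 R) ![c.1] := by
  change RelMap (r1 R) (Subtype.val ∘ ![c]) ↔ _
  rw [comp1]

omit [L.IsRelational] in
lemma sub_home (S : (SL L).Substructure N) (x : S) : Home L x ↔ Home L x.1 :=
  forall_congr' fun E => not_congr (sub_cl S E x)

omit [L.IsRelational] in
lemma Clo.std {S : (SL L).Substructure N} (h : Clo S) (hN : Std L N) : Std L S where
  ex := by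
    intro E x hx
    obtain ⟨c, hc⟩ := hN.ex E x.1 ((sub_home S x).1 hx)
    exact ⟨⟨c, h.up E _ _ x.2 hc⟩, (sub_in S E x _).2 hc⟩
  un := by
    intro E x c c' h1 h2
    exact Subtype.ext (hN.un E _ _ _ ((sub_in S E _ _).1 h1) ((sub_in S E _ _).1 h2))
  home := by
    intro E x c h1
    exact (sub_home S x).2 (hN.home E _ _ ((sub_in S E _ _).1 h1))
  cl := by
    intro E x c h1
    exact (sub_cl S E c).2 (hN.cl E _ _ ((sub_in S E _ _).1 h1))
  sur := by
    intro E c h1
    obtain ⟨x, hx, hx'⟩ := h.dn E c.1 c.2 ((sub_cl S E c).1 h1)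
    exact ⟨⟨x, hx⟩, (sub_in S E _ _).2 hx'⟩
  sort := by
    intro E F c h1 h2
    exact hN.sort E F c.1 ((sub_cl S E c).1 h1) ((sub_cl S F c).1 h2)
  una := by
    intro R x h1
    exact (sub_home S x).2 (hN.una R x.1 ((sub_r1 S R x).1 h1))

omit [L.IsRelational] in
lemma sub_rel1 {A : Type u} [L.Structure A] (T : L.Substructure A) (R : L.Relations 1) (a : T) :
    RelMap R ![a] ↔ RelMap R ![a.1] := by
  change RelMap R (Subtype.val ∘ ![a]) ↔ _
  rw [comp1]

omit [L.IsRelational] in
lemma sub_rel2 {A : Type u} [L.Structure A] (T : L.Substructure A) (R : L.Relations 2) (a b : T) :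
    RelMap R ![a, b] ↔ RelMap R ![a.1, b.1] := by
  change RelMap R (Subtype.val ∘ ![a, b]) ↔ _
  rw [comp2]

/-- the part of `S` as a structure and as a substructure -/
def hmEq (S : (SL L).Substructure N) : Hm L S ≃ hs S where
  toFun := fun x => ⟨⟨x.1.1, (sub_home S x.1).1 x.2⟩, x.1.2⟩
  invFun := fun x => ⟨⟨x.1.1, x.2⟩, (sub_home S _).2 x.1.2⟩
  left_inv := fun _ => rfl
  right_inv := fun _ => rfl

/-- the part of `S` as a structure and as a substructure -/
def hmSub {S : (SL L).Substructure N} (h : Clo S) : Hm L S ≃[L] hs S :=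
  mkL (hmEq S)
    (by
      intro R v
      exact Iff.rfl)
    (by
      intro R a
      rw [sub_rel1, hm1, hm1, sub_r1]
      rfl)
    (by
      intro E a b
      rw [sub_rel2, hm2, hm2]
      constructor
      · rintro ⟨c, h1, h2⟩
        exact ⟨⟨c, h.up E _ _ a.1.2 h1⟩, (sub_in S E _ _).2 h1, (sub_in S E _ _).2 h2⟩
      · rintro ⟨c, h1, h2⟩
        exact ⟨c.1, (sub_in S E _ _).1 h1, (sub_in S E _ _).1 h2⟩)
    (by
      intro n R v
      exact iff_of_false (hm3 (N := N) R _) (hm3 R _))

lemma hmSub_coe {S : (SL L).Substructure N} (h : Clo S) (x : Hm L S) :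
    (hmSub h x).1.1 = x.1.1 := rfl

end

end Vale.Agent.P307.H431.Lam
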