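import Vale.Agent.P307.H431.LamA

/-!
The abstract elementary class of the structures with points for the classes.
-/

universe u

open FirstOrder Cardinal Set

namespace Vale.Agent.P307.H431.Lam

open Language Structure

variable {L : Language.{u, u}} [L.IsRelational] (K : AEC L)

/-- membership -/
def memS (N : Type u) [(SL L).Structure N] : Prop := Std L N ∧ K.mem (Hm L N)

/-- strong substructures -/
def leS {N : Type u} [(SL L).Structure N] (S : (SL L).Substructure N) : Prop :=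
  Std L N ∧ Clo S ∧ K.le (hs S)

variable {K}
variable {M N : Type u} [(SL L).Structure M] [(SL L).Structure N]

lemma memS_iso (e : M ≃[SL L] N) (h : memS K M) : memS K N :=
  ⟨h.1.iso e, K.mem_iso (hmIso e) h.2⟩

lemma leS_iso (e : M ≃[SL L] N) (S : (SL L).Substructure M) (h : leS K S) :
    leS K (S.map e.toHom) := by
  obtain ⟨h1, h2, h3⟩ := h
  refine ⟨h1.iso e, ⟨?_, ?_⟩, ?_⟩
  · rintro E _ c ⟨x, hx, rfl⟩ hc
    obtain ⟨c, rfl⟩ := e.surjective c
    exact ⟨c, h2.up E x c hx ((iso_in e E x c).1 hc), rfl⟩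
  · rintro E _ ⟨c, hc, rfl⟩ hE
    obtain ⟨x, hx, hx'⟩ := h2.dn E c hc ((iso_cl e E c).1 hE)
    exact ⟨e x, ⟨x, hx, rfl⟩, (iso_in e E x c).2 hx'⟩
  · have h4 := K.le_iso (hmIso e) (hs S) h3
    have h5 : (hs S).map (hmIso e).toHom = hs (S.map e.toHom) := by
      ext x
      constructor
      · rintro ⟨a, ha, rfl⟩
        exact ⟨a.1, ha, rfl⟩
      · rintro ⟨a, ha, hax⟩
        have hax' : e a = x.1 := hax
        refine ⟨⟨a, (iso_home e a).1 (hax' ▸ x.2)⟩, ha, Subtype.ext hax⟩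
    rw [h5] at h4
    exact h4

lemma leS_mem {S : (SL L).Substructure N} (h : leS K S) : memS K S ∧ memS K N := by
  obtain ⟨h1, h2, h3⟩ := h
  have h4 := K.mem_of_le _ h3
  exact ⟨⟨h2.std h1, K.mem_iso (hmSub h2).symm h4.1⟩, h1, h4.2⟩

lemma leS_refl (h : memS K N) : leS K (⊤ : (SL L).Substructure N) := by
  refine ⟨h.1, ⟨fun _ _ _ _ _ => Language.Substructure.mem_top _, fun E c _ hc => ?_⟩, ?_⟩
  · obtain ⟨x, hx⟩ := h.1.sur E c hc
    exact ⟨x, Language.Substructure.mem_top _, hx⟩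
  · have h1 : hs (⊤ : (SL L).Substructure N) = ⊤ := by
      ext x
      exact ⟨fun _ => Language.Substructure.mem_top _, fun _ => Language.Substructure.mem_top _⟩
    rw [h1]
    exact K.le_refl h.2

lemma leS_trans (T : (SL L).Substructure N) (S : (SL L).Substructure T) (hS : leS K S)
    (hT : leS K T) : leS K (S.map T.subtype.toHom) := by
  obtain ⟨h1, h2, h3⟩ := hT
  obtain ⟨-, h4, h5⟩ := hS
  refine ⟨h1, ⟨?_, ?_⟩, ?_⟩
  · rintro E _ c ⟨x, hx, rfl⟩ hc
    have hcT : c ∈ T := h2.up E x.1 c x.2 hc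
    exact ⟨⟨c, hcT⟩, h4.up E x ⟨c, hcT⟩ hx ((sub_in T E x ⟨c, hcT⟩).2 hc), rfl⟩
  · rintro E _ ⟨c, hc, rfl⟩ hE
    obtain ⟨x, hx, hx'⟩ := h4.dn E c hc ((sub_cl T E c).2 hE)
    exact ⟨x.1, ⟨x, hx, rfl⟩, (sub_in T E x c).1 hx'⟩
  · have h6 := K.le_trans (hs T) _ (K.le_iso (hmSub h2) (hs S) h5) h3
    have h7 : ((hs S).map (hmSub h2).toHom).map (hs T).subtype.toHom =
        hs (S.map T.subtype.toHom) := by
      ext x
      constructor
      · rintro ⟨_, ⟨a, ha, rfl⟩, rfl⟩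
        exact ⟨a.1, ha, rfl⟩
      · rintro ⟨a, ha, hax⟩
        have hax' : (a : N) = x.1 := hax
        have hh : Home L a := (sub_home T a).2 (hax' ▸ x.2)
        exact ⟨hmSub h2 ⟨a, hh⟩, ⟨⟨a, hh⟩, ha, rfl⟩, Subtype.ext hax⟩
    rw [h7] at h6
    exact h6

lemma hs_comap {S T : (SL L).Substructure N} (h2 : Clo T) :
    ((hs S).comap (hs T).subtype.toHom).map (hmSub h2).symm.toHom =
      hs (S.comap T.subtype.toHom) := by
  ext x
  constructor
  · rintro ⟨a, ha, rfl⟩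
    exact ha
  · intro hx
    exact ⟨hmSub h2 x, hx, (hmSub h2).symm_apply_apply x⟩

lemma leS_coh (S T : (SL L).Substructure N) (hST : S ≤ T) (hS : leS K S) (hT : leS K T) :
    leS K (S.comap T.subtype.toHom) := by
  obtain ⟨h1, h2, h3⟩ := hT
  obtain ⟨-, h4, h5⟩ := hS
  refine ⟨h2.std h1, ⟨?_, ?_⟩, ?_⟩
  · intro E x c hx hc
    exact h4.up E x.1 c.1 hx ((sub_in T E x c).1 hc)
  · intro E c hc hE
    obtain ⟨x, hx, hx'⟩ := h4.dn E c.1 hc ((sub_cl T E c).1 hE)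
    exact ⟨⟨x, hST hx⟩, hx, (sub_in T E _ _).2 hx'⟩
  · rw [← hs_comap h2]
    exact K.le_iso _ _ (K.coherence (hs S) (hs T) (fun x hx => hST hx) h5 h3)

end Vale.Agent.P307.H431.Lam
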