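import Vale.Agent.P307.H431.LamB

/-!
Chains and small strong substructures.
-/

universe u

open FirstOrder Cardinal Set

namespace Vale.Agent.P307.H431.Lam

open Language Structure

variable {L : Language.{u, u}} [L.IsRelational] {K : AEC L}

lemma leS_smooth {N : Type u} [(SL L).Structure N] {ι : Type u} [LinearOrder ι]
    [WellFoundedLT ι] [Nonempty ι] (S : ι → (SL L).Substructure N)
    (hmono : ∀ i j, i ≤ j → S i ≤ S j) (h : ∀ i, leS K (S i)) : leS K (⨆ i, S i) := by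
  have d2 : Directed (· ≤ ·) S := directed_of_isDirected_le (fun i j hij => hmono i j hij)
  have hm : ∀ x : N, x ∈ (⨆ i, S i) ↔ ∃ i, x ∈ S i := fun x =>
    Language.Substructure.mem_iSup_of_directed d2
  have hT : ∀ i j, i ≤ j → hs (S i) ≤ hs (S j) := fun i j hij x hx => hmono i j hij hx
  have d1 : Directed (· ≤ ·) fun i => hs (S i) :=
    directed_of_isDirected_le (fun i j hij => hT i j hij)
  refine ⟨(h (Classical.arbitrary ι)).1, ⟨?_, ?_⟩, ?_⟩
  · intro E x c hx hc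
    obtain ⟨i, hi⟩ := (hm x).1 hx
    exact (hm c).2 ⟨i, (h i).2.1.up E x c hi hc⟩
  · intro E c hc hE
    obtain ⟨i, hi⟩ := (hm c).1 hc
    obtain ⟨x, hx, hx'⟩ := (h i).2.1.dn E c hi hE
    exact ⟨x, (hm x).2 ⟨i, hx⟩, hx'⟩
  · have h1 : hs (⨆ i, S i) = ⨆ i, hs (S i) := by
      ext x
      rw [Language.Substructure.mem_iSup_of_directed d1]
      exact hm x.1
    rw [h1]
    exact K.chain_smooth _ hT fun i => (h i).2.2

lemma leS_union {U : Type u} [(SL L).Structure U] {ι : Type u} [LinearOrder ι]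
    [WellFoundedLT ι] [Nonempty ι] (S : ι → (SL L).Substructure U)
    (hmono : ∀ i j, i ≤ j → S i ≤ S j)
    (hle : ∀ i j, i ≤ j → leS K ((S i).comap (S j).subtype.toHom))
    (hcov : ∀ x : U, ∃ i, x ∈ S i) : memS K U ∧ ∀ i, leS K (S i) := by
  have hst : ∀ i, Std L (S i) := fun i => (hle i i le_rfl).1
  have h2 : ∀ x y : U, ∃ i, x ∈ S i ∧ y ∈ S i := by
    intro x y
    obtain ⟨i, hi⟩ := hcov x
    obtain ⟨j, hj⟩ := hcov y
    exact ⟨max i j, hmono _ _ (le_max_left _ _) hi, hmono _ _ (le_max_right _ _) hj⟩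
  have h3 : ∀ x y z : U, ∃ i, x ∈ S i ∧ y ∈ S i ∧ z ∈ S i := by
    intro x y z
    obtain ⟨i, hi, hi'⟩ := h2 x y
    obtain ⟨j, hj⟩ := hcov z
    exact ⟨max i j, hmono _ _ (le_max_left _ _) hi, hmono _ _ (le_max_left _ _) hi',
      hmono _ _ (le_max_right _ _) hj⟩
  have hU : Std L U := by
    constructor
    · intro E x hx
      obtain ⟨i, hi⟩ := hcov x
      obtain ⟨c, hc⟩ := (hst i).ex E ⟨x, hi⟩ ((sub_home (S i) _).2 hx)
      exact ⟨c.1, (sub_in (S i) E _ _).1 hc⟩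
    · intro E x c c' hc hc'
      obtain ⟨i, hx, hi, hi'⟩ := h3 x c c'
      exact congrArg Subtype.val ((hst i).un E ⟨x, hx⟩ ⟨c, hi⟩ ⟨c', hi'⟩
        ((sub_in (S i) E _ _).2 hc) ((sub_in (S i) E _ _).2 hc'))
    · intro E x c hc
      obtain ⟨i, hx, hi⟩ := h2 x c
      exact (sub_home (S i) _).1 ((hst i).home E ⟨x, hx⟩ ⟨c, hi⟩ ((sub_in (S i) E _ _).2 hc))
    · intro E x c hc
      obtain ⟨i, hx, hi⟩ := h2 x c
      exact (sub_cl (S i) E _).1 ((hst i).cl E ⟨x, hx⟩ ⟨c, hi⟩ ((sub_in (S i) E _ _).2 hc))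
    · intro E c hc
      obtain ⟨i, hi⟩ := hcov c
      obtain ⟨x, hx⟩ := (hst i).sur E ⟨c, hi⟩ ((sub_cl (S i) E _).2 hc)
      exact ⟨x.1, (sub_in (S i) E _ _).1 hx⟩
    · intro E F c hE hF
      obtain ⟨i, hi⟩ := hcov c
      exact (hst i).sort E F ⟨c, hi⟩ ((sub_cl (S i) E _).2 hE) ((sub_cl (S i) F _).2 hF)
    · intro R x hx
      obtain ⟨i, hi⟩ := hcov x
      exact (sub_home (S i) ⟨x, hi⟩).1 ((hst i).una R ⟨x, hi⟩ ((sub_r1 (S i) R ⟨x, hi⟩).2 hx))
  have hclo : ∀ i, Clo (S i) := by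
    intro i
    constructor
    · intro E x c hx hc
      obtain ⟨j, hj⟩ := hcov c
      have hx' : x ∈ S (max i j) := hmono _ _ (le_max_left _ _) hx
      have hc' : c ∈ S (max i j) := hmono _ _ (le_max_right _ _) hj
      exact (hle i (max i j) (le_max_left _ _)).2.1.up E ⟨x, hx'⟩ ⟨c, hc'⟩ hx
        ((sub_in (S (max i j)) E _ _).2 hc)
    · intro E c hc hE
      obtain ⟨x, hx, hx'⟩ := (hle i i le_rfl).2.1.dn E ⟨c, hc⟩ hc ((sub_cl (S i) E _).2 hE)
      exact ⟨x.1, hx, (sub_in (S i) E _ _).1 hx'⟩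
  have hT : ∀ i j, i ≤ j → hs (S i) ≤ hs (S j) := fun i j hij x hx => hmono i j hij hx
  have hTle : ∀ i j, i ≤ j → K.le ((hs (S i)).comap (hs (S j)).subtype.toHom) := by
    intro i j hij
    have h4 := K.le_iso (hmSub (hclo j)) _ (hle i j hij).2.2
    have h5 : (hs ((S i).comap (S j).subtype.toHom)).map (hmSub (hclo j)).toHom =
        (hs (S i)).comap (hs (S j)).subtype.toHom := by
      ext x
      constructor
      · rintro ⟨a, ha, rfl⟩
        exact ha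
      · intro hx
        refine ⟨(hmSub (hclo j)).symm x, hx, (hmSub (hclo j)).apply_symm_apply x⟩
    rw [h5] at h4
    exact h4
  obtain ⟨h6, h7⟩ := K.chain_union (fun i => hs (S i)) hT hTle fun x => hcov x.1
  exact ⟨⟨hU, h6⟩, fun i => ⟨hU, hclo i, h7 i⟩⟩

lemma card_SL (L : Language.{u, u}) {l : Cardinal.{u}} (hl : ℵ₀ ≤ l) (h : L.card ≤ l) :
    (SL L).card ≤ l := by
  let g : (SL L).Symbols → L.Symbols ⊕ L.Symbols := fun s =>
    match s with
    | Sum.inl ⟨_, f⟩ => PEmpty.elim f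
    | Sum.inr ⟨0, R⟩ => Sum.inl (Sum.inr ⟨0, R⟩)
    | Sum.inr ⟨1, Sum.inl R⟩ => Sum.inl (Sum.inr ⟨1, R⟩)
    | Sum.inr ⟨1, Sum.inr R⟩ => Sum.inr (Sum.inr ⟨2, R⟩)
    | Sum.inr ⟨2, R⟩ => Sum.inl (Sum.inr ⟨2, R⟩)
    | Sum.inr ⟨_ + 3, R⟩ => PEmpty.elim R
  have hg : Function.Injective g := by
    intro s t hst
    match s, t, hst with
    | Sum.inl ⟨_, f⟩, _, _ => exact PEmpty.elim f
    | _, Sum.inl ⟨_, f⟩, _ => exact PEmpty.elim f
    | Sum.inr ⟨_ + 3, f⟩, _, _ => exact PEmpty.elim f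
    | _, Sum.inr ⟨_ + 3, f⟩, _ => exact PEmpty.elim f
    | Sum.inr ⟨0, R⟩, Sum.inr ⟨0, R'⟩, hst =>
      simp only [g] at hst
      cases hst
      rfl
    | Sum.inr ⟨0, R⟩, Sum.inr ⟨1, Sum.inl R'⟩, hst => cases hst
    | Sum.inr ⟨0, R⟩, Sum.inr ⟨1, Sum.inr R'⟩, hst => cases hst
    | Sum.inr ⟨0, R⟩, Sum.inr ⟨2, R'⟩, hst => cases hst
    | Sum.inr ⟨1, Sum.inl R⟩, Sum.inr ⟨0, R'⟩, hst => cases hst
    | Sum.inr ⟨1, Sum.inl R⟩, Sum.inr ⟨1, Sum.inl R'⟩, hst =>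
      simp only [g] at hst
      cases hst
      rfl
    | Sum.inr ⟨1, Sum.inl R⟩, Sum.inr ⟨1, Sum.inr R'⟩, hst => cases hst
    | Sum.inr ⟨1, Sum.inl R⟩, Sum.inr ⟨2, R'⟩, hst => cases hst
    | Sum.inr ⟨1, Sum.inr R⟩, Sum.inr ⟨0, R'⟩, hst => cases hst
    | Sum.inr ⟨1, Sum.inr R⟩, Sum.inr ⟨1, Sum.inl R'⟩, hst => cases hst
    | Sum.inr ⟨1, Sum.inr R⟩, Sum.inr ⟨1, Sum.inr R'⟩, hst =>
      simp only [g] at hst
      cases hst
      rfl
    | Sum.inr ⟨1, Sum.inr R⟩, Sum.inr ⟨2, R'⟩, hst => cases hst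
    | Sum.inr ⟨2, R⟩, Sum.inr ⟨0, R'⟩, hst => cases hst
    | Sum.inr ⟨2, R⟩, Sum.inr ⟨1, Sum.inl R'⟩, hst => cases hst
    | Sum.inr ⟨2, R⟩, Sum.inr ⟨1, Sum.inr R'⟩, hst => cases hst
    | Sum.inr ⟨2, R⟩, Sum.inr ⟨2, R'⟩, hst =>
      simp only [g] at hst
      cases hst
      rfl
  refine (Cardinal.mk_le_of_injective hg).trans ?_
  rw [mk_sum, lift_id]
  exact add_le_of_le hl h h

lemma card_rel2 (L : Language.{u, u}) : #(L.Relations 2) ≤ L.card := by
  refine Cardinal.mk_le_of_injective (f := fun R => (Sum.inr ⟨2, R⟩ : L.Symbols)) ?_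
  intro R R' h
  simp only [Sum.inr.injEq] at h
  cases h
  rfl

omit [L.IsRelational] in
/-- The size of a standard structure. -/
lemma card_std {N : Type u} [(SL L).Structure N] (hN : Std L N) {l : Cardinal.{u}} (hl : ℵ₀ ≤ l)
    (hL : L.card ≤ l) : #N ≤ max #(Hm L N) l := by
  classical
  have h1 : ∀ x : N, ∃ t : Hm L N × Option (L.Relations 2), match t.2 with
      | none => x = t.1.1
      | some E => In E t.1.1 x := by
    intro x
    by_cases hx : Home L x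
    · exact ⟨(⟨x, hx⟩, none), rfl⟩
    · unfold Home at hx
      push Not at hx
      obtain ⟨E, hE⟩ := hx
      obtain ⟨y, hy⟩ := hN.sur E x hE
      exact ⟨(⟨y, hN.home E y x hy⟩, some E), hy⟩
  choose t ht using h1
  have hinj : Function.Injective t := by
    intro x y hxy
    have hx := ht x
    have hy := ht y
    rw [← hxy] at hy
    generalize t x = s at hx hy
    obtain ⟨z, E⟩ := s
    cases E with
    | none =>
      exact (show x = z.1 from hx).trans (show y = z.1 from hy).symm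
    | some E => exact hN.un E z.1 x y hx hy
  refine (Cardinal.mk_le_of_injective hinj).trans ?_
  rw [mk_prod, lift_id, lift_id, mk_option]
  have h2 : #(L.Relations 2) + 1 ≤ l :=
    add_le_of_le hl ((card_rel2 L).trans hL) (one_le_aleph0.trans hl)
  refine (mul_le_mul' le_rfl h2).trans ?_
  rcases le_or_gt ℵ₀ #(Hm L N) with h3 | h3
  · rw [mul_eq_max h3 hl]
  · exact (mul_le_max _ _).trans (max_le le_rfl (hl.trans (le_max_right _ _)))

lemma lsS {l : Cardinal.{u}} (h : K.IsLS l) {N : Type u} [(SL L).Structure N] (hN : memS K N)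
    (A : Set N) : ∃ S : (SL L).Substructure N, leS K S ∧ A ⊆ S ∧ #S ≤ #A + l := by
  classical
  obtain ⟨hst, hmem⟩ := hN
  have h1 : ∀ a : A, ∃ y : Hm L N, a.1 = y.1 ∨ ∃ E : L.Relations 2, In E y.1 a.1 := by
    rintro ⟨x, -⟩
    by_cases hx : Home L x
    · exact ⟨⟨x, hx⟩, Or.inl rfl⟩
    · unfold Home at hx
      push Not at hx
      obtain ⟨E, hE⟩ := hx
      obtain ⟨y, hy⟩ := hst.sur E x hE
      exact ⟨⟨y, hst.home E y x hy⟩, Or.inr ⟨E, hy⟩⟩
  choose g hg using h1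
  obtain ⟨T, hT1, hT2, hT3⟩ := h.2.2 (Hm L N) hmem (Set.range g)
  let S : (SL L).Substructure N :=
    { carrier := {x | ∃ y ∈ T, x = y.1 ∨ ∃ E : L.Relations 2, In E y.1 x}
      fun_mem := fun f => PEmpty.elim f }
  have hS : ∀ x : N, x ∈ S ↔ ∃ y ∈ T, x = y.1 ∨ ∃ E : L.Relations 2, In E y.1 x :=
    fun x => Iff.rfl
  have hST : hs S = T := by
    ext x
    constructor
    · rintro ⟨y, hy, h2 | ⟨E, hE⟩⟩
      · rwa [Subtype.ext h2]
      · exact absurd (hst.cl E _ _ hE) (x.2 E)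
    · intro hx
      exact ⟨x, hx, Or.inl rfl⟩
  have hclo : Clo S := by
    constructor
    · rintro E x c ⟨y, hy, h2 | ⟨F, hF⟩⟩ hc
      · exact ⟨y, hy, Or.inr ⟨E, h2 ▸ hc⟩⟩
      · exact absurd (hst.cl F _ _ hF) (hst.home E _ _ hc F)
    · rintro E c ⟨y, hy, h2 | ⟨F, hF⟩⟩ hE
      · exact absurd hE (h2 ▸ y.2 E)
      · have : F = E := hst.sort F E c (hst.cl F _ _ hF) hE
        subst this
        exact ⟨y.1, ⟨y, hy, Or.inl rfl⟩, hF⟩
  refine ⟨S, ⟨hst, hclo, ?_⟩, ?_, ?_⟩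
  · rw [hST]
    exact hT1
  · intro x hx
    exact ⟨g ⟨x, hx⟩, hT2 ⟨_, rfl⟩, hg ⟨x, hx⟩⟩
  · have h2 : #S ≤ max #(Hm L S) l := card_std (hclo.std hst) h.1 h.2.1
    have h3 : #(Hm L S) = #T := by
      rw [mk_congr (hmEq S), hST]
    have h4 : #T ≤ #A + l := hT3.trans (add_le_add_left mk_range_le l)
    refine h2.trans (max_le ?_ ?_)
    · rw [h3]
      exact h4
    · exact self_le_add_left _ _

variable (K) in
/-- The abstract elementary class of the structures with points for the classes. -/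
def starAEC : AEC (SL L) where
  mem := fun N _ => memS K N
  le := fun S => leS K S
  mem_iso := fun e h => memS_iso e h
  le_iso := fun e S h => leS_iso e S h
  mem_of_le := fun S h => leS_mem h
  le_refl := fun h => leS_refl h
  le_trans := fun T S hS hT => leS_trans T S hS hT
  coherence := fun S T hST hS hT => leS_coh S T hST hS hT
  chain_union := fun S h1 h2 h3 => leS_union S h1 h2 h3
  chain_smooth := fun S h1 h2 => leS_smooth S h1 h2
  exists_ls := by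
    obtain ⟨l, hl⟩ : ∃ l, K.IsLS l := ⟨_, AEC.isLS_LS K⟩
    exact ⟨l, hl.1, card_SL L hl.1 hl.2.1, fun hN A => lsS hl hN A⟩

lemma star_isLS {l : Cardinal.{u}} (h : K.IsLS l) : (starAEC K).IsLS l :=
  ⟨h.1, card_SL L h.1 h.2.1, fun _ _ hN A => lsS h hN A⟩

lemma star_LS {l : Cardinal.{u}} (h : K.LS ≤ l) : (starAEC K).LS ≤ l :=
  csInf_le' (star_isLS (AEC.isLS_of_LS_le h))

end Vale.Agent.P307.H431.Lam
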