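import Vale.Agent.P307.H431.LamC

/-!
Transfer of categoricity.
-/

universe u

open FirstOrder Cardinal Set

namespace Vale.Agent.P307.H431.Lam

open Language Structure

variable {L : Language.{u, u}} [L.IsRelational] {K : AEC L}

/-- the binary relations are equivalence relations -/
def EqRel (L : Language.{u, u}) (M : Type u) [L.Structure M] : Prop :=
  ∀ E : L.Relations 2, Equivalence fun x y : M => RelMap E ![x, y]

section ext

variable {N N' : Type u} [(SL L).Structure N] [(SL L).Structure N']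

/-- Isomorphisms of the parts which are not classes extend. -/
lemma exists_ext (hN : Std L N) (hN' : Std L N') (f : Hm L N ≃[L] Hm L N') :
    Nonempty (N ≃[SL L] N') := by
  classical
  -- the relation
  let R : N → N' → Prop := fun x y => (∃ a : Hm L N, x = a.1 ∧ y = (f a).1) ∨
    ∃ (E : L.Relations 2) (a : Hm L N), In E a.1 x ∧ In E (f a).1 y
  have hnh : ∀ (E : L.Relations 2) (a : Hm L N) (x : N), In E a.1 x → ¬ Home L x :=
    fun E a x h h' => h' E (hN.cl E _ _ h)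
  have hnh' : ∀ (E : L.Relations 2) (a : Hm L N') (x : N'), In E a.1 x → ¬ Home L x :=
    fun E a x h h' => h' E (hN'.cl E _ _ h)
  have hE : ∀ (E : L.Relations 2) (a b : Hm L N) (x : N) (y z : N'), In E a.1 x → In E b.1 x →
      In E (f a).1 y → In E (f b).1 z → y = z := by
    intro E a b x y z h1 h2 h3 h4
    have h5 : RelMap E ![a, b] := (hm2 E a b).2 ⟨x, h1, h2⟩
    have h6 : RelMap E ![f a, f b] := by
      have := f.map_rel E ![a, b]
      rw [comp2] at this
      exact this.2 h5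
    obtain ⟨c, h7, h8⟩ := (hm2 E _ _).1 h6
    exact (hN'.un E _ _ _ h3 h7).trans (hN'.un E _ _ _ h4 h8).symm
  have hE' : ∀ (E : L.Relations 2) (a b : Hm L N) (x z : N) (y : N'), In E a.1 x → In E b.1 z →
      In E (f a).1 y → In E (f b).1 y → x = z := by
    intro E a b x z y h1 h2 h3 h4
    have h6 : RelMap E ![f a, f b] := (hm2 E _ _).2 ⟨y, h3, h4⟩
    have h5 : RelMap E ![a, b] := by
      have := f.map_rel E ![a, b]
      rw [comp2] at this
      exact this.1 h6
    obtain ⟨c, h7, h8⟩ := (hm2 E _ _).1 h5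
    exact (hN.un E _ _ _ h1 h7).trans (hN.un E _ _ _ h2 h8).symm
  have hl : ∀ x, ∃ y, R x y := by
    intro x
    by_cases hx : Home L x
    · exact ⟨_, Or.inl ⟨⟨x, hx⟩, rfl, rfl⟩⟩
    · unfold Home at hx
      push Not at hx
      obtain ⟨E, hEx⟩ := hx
      obtain ⟨a, ha⟩ := hN.sur E x hEx
      obtain ⟨y, hy⟩ := hN'.ex E (f ⟨a, hN.home E a x ha⟩).1 (f ⟨a, hN.home E a x ha⟩).2
      exact ⟨y, Or.inr ⟨E, ⟨a, hN.home E a x ha⟩, ha, hy⟩⟩
  have hr : ∀ y, ∃ x, R x y := by
    intro y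
    by_cases hy : Home L y
    · refine ⟨(f.symm ⟨y, hy⟩).1, Or.inl ⟨_, rfl, ?_⟩⟩
      rw [f.apply_symm_apply]
    · unfold Home at hy
      push Not at hy
      obtain ⟨E, hEy⟩ := hy
      obtain ⟨b, hb⟩ := hN'.sur E y hEy
      obtain ⟨x, hx⟩ := hN.ex E (f.symm ⟨b, hN'.home E b y hb⟩).1
        (f.symm ⟨b, hN'.home E b y hb⟩).2
      refine ⟨x, Or.inr ⟨E, _, hx, ?_⟩⟩
      rw [f.apply_symm_apply]
      exact hb
  have hfun : ∀ x y z, R x y → R x z → y = z := by
    rintro x y z (⟨a, rfl, rfl⟩ | ⟨E, a, h1, h2⟩) (⟨b, h3, rfl⟩ | ⟨F, b, h3, h4⟩)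
    · rw [Subtype.ext h3]
    · exact absurd a.2 (hnh F b _ h3)
    · exact absurd (h3 ▸ b.2) (hnh E a _ h1)
    · obtain rfl : E = F := hN.sort E F x (hN.cl E _ _ h1) (hN.cl F _ _ h3)
      exact hE E a b x y z h1 h3 h2 h4
  have hinj : ∀ x z y, R x y → R z y → x = z := by
    rintro x z y (⟨a, rfl, rfl⟩ | ⟨E, a, h1, h2⟩) (⟨b, rfl, h3⟩ | ⟨F, b, h3, h4⟩)
    · rw [f.injective (Subtype.ext h3)]
    · exact absurd (f a).2 (hnh' F _ _ h4)
    · exact absurd (h3 ▸ (f b).2) (hnh' E _ _ h2)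
    · obtain rfl : E = F := hN'.sort E F y (hN'.cl E _ _ h2) (hN'.cl F _ _ h4)
      exact hE' E a b x z y h1 h3 h2 h4
  choose g hg using hl
  choose g' hg' using hr
  let e : N ≃ N' :=
    { toFun := g
      invFun := g'
      left_inv := fun x => hinj _ _ _ (hg' (g x)) (hg x)
      right_inv := fun y => hfun _ _ _ (hg (g' y)) (hg' y) }
  have heh : ∀ a : Hm L N, e a.1 = (f a).1 := fun a => hfun _ _ _ (hg a.1) (Or.inl ⟨a, rfl, rfl⟩)
  have hecl : ∀ (E : L.Relations 2) (a : Hm L N) (x : N), In E a.1 x → In E (f a).1 (e x) := by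
    intro E a x hx
    obtain ⟨y, hy⟩ := hN'.ex E (f a).1 (f a).2
    have : e x = y := hfun _ _ _ (hg x) (Or.inr ⟨E, a, hx, hy⟩)
    rw [this]
    exact hy
  have hcl : ∀ (E : L.Relations 2) (x : N), Cl E (e x) ↔ Cl E x := by
    intro E x
    constructor
    · intro h
      rcases hg x with ⟨a, h1, h2⟩ | ⟨F, a, h1, h2⟩
      · exact absurd h ((show e x = (f a).1 from h2) ▸ (f a).2 E)
      · obtain rfl : F = E := hN'.sort F E _ (hN'.cl F _ _ h2) h
        exact hN.cl F _ _ h1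
    · intro h
      obtain ⟨a, ha⟩ := hN.sur E x h
      exact hN'.cl E _ _ (hecl E ⟨a, hN.home E a x ha⟩ x ha)
  have hhome : ∀ x : N, Home L (e x) ↔ Home L x := fun x =>
    forall_congr' fun E => not_congr (hcl E x)
  refine ⟨mkS e ?_ ?_ hcl ?_⟩
  · intro R v
    have h1 := f.map_rel R (fun i : Fin 0 => i.elim0)
    rw [hm0, hm0] at h1
    have h2 : (e ∘ v : Fin 0 → N') = fun i => ((f ∘ fun i : Fin 0 => i.elim0) i).1 := vec0 _ _
    have h3 : v = fun i => ((fun i : Fin 0 => i.elim0 : Fin 0 → Hm L N) i).1 := vec0 _ _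
    rw [h2, h3]
    exact h1
  · intro R x
    constructor
    · intro h
      have hx : Home L x := (hhome x).1 (hN'.una R _ h)
      have h1 := f.map_rel R ![⟨x, hx⟩]
      rw [comp1, hm1, hm1, ← heh ⟨x, hx⟩] at h1
      exact h1.1 h
    · intro h
      have hx : Home L x := hN.una R _ h
      have h1 := f.map_rel R ![⟨x, hx⟩]
      rw [comp1, hm1, hm1, ← heh ⟨x, hx⟩] at h1
      exact h1.2 h
  · intro E x c
    constructor
    · intro h
      have hx : Home L x := (hhome x).1 (hN'.home E _ _ h)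
      have hc : Cl E c := (hcl E c).1 (hN'.cl E _ _ h)
      obtain ⟨c', hc'⟩ := hN.ex E x hx
      have h1 := hecl E ⟨x, hx⟩ c' hc'
      rw [← heh ⟨x, hx⟩] at h1
      have h2 := e.injective (hN'.un E _ _ _ h1 h)
      rw [← h2]
      exact hc'
    · intro h
      have hx : Home L x := hN.home E _ _ h
      have h1 := hecl E ⟨x, hx⟩ c h
      rw [← heh ⟨x, hx⟩] at h1
      exact h1

end ext

section star

variable (L)

/-- the points of `M` and the classes -/
def Star (M : Type u) [L.Structure M] : Type u :=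
  M ⊕ (Σ E : L.Relations 2, Quot fun x y : M => RelMap E ![x, y])

variable {L} {M : Type u} [L.Structure M]

def starRel : ∀ {n : ℕ}, SR L n → (Fin n → Star L M) → Prop
  | 0, R, _ => RelMap (L := L) (M := M) (n := 0) R fun i => i.elim0
  | 1, Sum.inl R, v => ∃ m : M, v 0 = Sum.inl m ∧ RelMap R ![m]
  | 1, Sum.inr E, v => ∃ q, v 0 = Sum.inr ⟨E, q⟩
  | 2, E, v => ∃ m : M, v 0 = Sum.inl m ∧
      v 1 = Sum.inr ⟨(show L.Relations 2 from E), Quot.mk _ m⟩

instance starStr : (SL L).Structure (Star L M) where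
  funMap := fun f _ => PEmpty.elim f
  RelMap := fun R v => starRel R v

omit [L.IsRelational] in
lemma star_in (E : L.Relations 2) (x c : Star L M) : In E x c ↔ ∃ m : M, x = Sum.inl m ∧
    c = Sum.inr ⟨E, Quot.mk _ m⟩ := Iff.rfl

omit [L.IsRelational] in
lemma star_cl (E : L.Relations 2) (c : Star L M) : Cl E c ↔ ∃ q, c = Sum.inr ⟨E, q⟩ := Iff.rfl

omit [L.IsRelational] in
lemma star_home (x : Star L M) : Home L x ↔ ∃ m : M, x = Sum.inl m := by
  constructor
  · intro h
    rcases x with m | ⟨E, q⟩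
    · exact ⟨m, rfl⟩
    · exact absurd ⟨q, rfl⟩ (h E)
  · rintro ⟨m, rfl⟩ E ⟨q, hq⟩
    exact Sum.inl_ne_inr hq

omit [L.IsRelational] in
lemma star_std : Std L (Star L M) where
  ex := by
    intro E x hx
    obtain ⟨m, rfl⟩ := (star_home x).1 hx
    exact ⟨_, m, rfl, rfl⟩
  un := by
    rintro E x c c' ⟨m, h1, h2⟩ ⟨m', h3, h4⟩
    have : m = m' := Sum.inl_injective (h1.symm.trans h3)
    subst this
    exact h2.trans h4.symm
  home := by
    rintro E x c ⟨m, h1, h2⟩
    exact (star_home x).2 ⟨m, h1⟩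
  cl := by
    rintro E x c ⟨m, h1, h2⟩
    exact ⟨_, h2⟩
  sur := by
    rintro E c ⟨q, hq⟩
    obtain ⟨m, rfl⟩ := Quot.exists_rep q
    exact ⟨Sum.inl m, m, rfl, hq⟩
  sort := by
    rintro E F c ⟨q, hq⟩ ⟨q', hq'⟩
    have := Sum.inr_injective (hq.symm.trans hq')
    exact congrArg Sigma.fst this
  una := by
    rintro R x ⟨m, h1, h2⟩
    exact (star_home x).2 ⟨m, h1⟩

/-- the equivalence with the points which are not classes -/
noncomputable def starEq : M ≃ Hm L (Star L M) :=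
  Equiv.ofBijective (fun m => ⟨Sum.inl m, (star_home _).2 ⟨m, rfl⟩⟩) (by
    constructor
    · intro m m' h
      exact Sum.inl_injective (congrArg Subtype.val h)
    · rintro ⟨x, hx⟩
      obtain ⟨m, rfl⟩ := (star_home x).1 hx
      exact ⟨m, rfl⟩)

lemma star_iso (h3 : ∀ n, IsEmpty (L.Relations (n + 3))) (hE : EqRel L M) :
    Nonempty (M ≃[L] Hm L (Star L M)) := by
  refine ⟨mkL starEq ?_ ?_ ?_ ?_⟩
  · intro R v
    rw [hm0, vec0 v fun i => i.elim0]
    exact Iff.rfl
  · intro R a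
    rw [hm1]
    constructor
    · rintro ⟨m, h1, h2⟩
      have : a = m := Sum.inl_injective h1
      subst this
      exact h2
    · intro h
      exact ⟨a, rfl, h⟩
  · intro E a b
    rw [hm2]
    constructor
    · rintro ⟨c, hc1, hc2⟩
      obtain ⟨m, h1, h2⟩ := (star_in E _ c).1 hc1
      obtain ⟨m', h4, h5⟩ := (star_in E _ c).1 hc2
      have h6 : a = m := Sum.inl_injective h1
      have h7 : b = m' := Sum.inl_injective h4
      subst h6 h7
      have h8 := Sum.inr_injective (h2.symm.trans h5)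
      have h9 := eq_of_heq (Sigma.mk.inj_iff.1 h8).2
      exact ((hE E).eqvGen_iff).1 (Quot.eqvGen_exact h9)
    · intro h
      refine ⟨Sum.inr ⟨E, Quot.mk _ a⟩, (star_in E _ _).2 ⟨a, rfl, rfl⟩,
        (star_in E _ _).2 ⟨b, rfl, ?_⟩⟩
      have : (Quot.mk (fun x y : M => RelMap E ![x, y]) a) =
          Quot.mk (fun x y : M => RelMap E ![x, y]) b := Quot.sound h
      rw [this]
  · intro n R v
    exact (h3 n).elim R

end star

/-- Transfer of categoricity. -/
lemma star_categorical (h3 : ∀ n, IsEmpty (L.Relations (n + 3)))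
    (hE : ∀ (M : Type u) [L.Structure M], K.mem M → EqRel L M) {l κ : Cardinal.{u}}
    (hK : K.IsLS l) (hκ : l < κ) : (starAEC K).CategoricalIn κ ↔ K.CategoricalIn κ := by
  have hL : L.card ≤ l := hK.2.1
  -- sizes
  have hsize : ∀ (N : Type u) [(SL L).Structure N], Std L N → (#N = κ ↔ #(Hm L N) = κ) := by
    intro N _ hN
    have h1 := card_std hN hK.1 hL
    have h2 : #(Hm L N) ≤ #N := mk_le_of_injective Subtype.val_injective
    constructor
    · intro h
      refine le_antisymm (h2.trans h.le) ?_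
      by_contra h4
      rw [not_le] at h4
      exact absurd (h1.trans_lt (max_lt h4 hκ)) (by rw [h]; exact lt_irrefl _)
    · intro h
      refine le_antisymm (h1.trans (max_le h.le hκ.le)) (h.symm.le.trans h2)
  -- members of the new class
  have hstar : ∀ (M : Type u) [L.Structure M], K.mem M → #M = κ →
      ∃ (N : Type u) (_ : (SL L).Structure N), (starAEC K).mem N ∧ #N = κ ∧
        Nonempty (M ≃[L] Hm L N) := by
    intro M _ hM hMκ
    obtain ⟨e⟩ := star_iso h3 (hE M hM)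
    refine ⟨Star L M, inferInstance, ⟨star_std, K.mem_iso e hM⟩, ?_, ⟨e⟩⟩
    exact (hsize _ star_std).2 ((mk_congr e.toEquiv).symm.trans hMκ)
  constructor
  · rintro ⟨⟨N, _, hN, hNκ⟩, hu⟩
    refine ⟨⟨Hm L N, inferInstance, hN.2, (hsize N hN.1).1 hNκ⟩, ?_⟩
    intro A B _ _ hA hB hAκ hBκ
    obtain ⟨NA, _, h1, h2, ⟨eA⟩⟩ := hstar A hA hAκ
    obtain ⟨NB, _, h4, h5, ⟨eB⟩⟩ := hstar B hB hBκ
    obtain ⟨e⟩ := hu NA NB h1 h4 h2 h5
    exact ⟨(eB.symm.comp (hmIso e)).comp eA⟩
  · rintro ⟨⟨M, _, hM, hMκ⟩, hu⟩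
    obtain ⟨N, _, h1, h2, -⟩ := hstar M hM hMκ
    refine ⟨⟨N, _, h1, h2⟩, ?_⟩
    intro A B _ _ hA hB hAκ hBκ
    obtain ⟨f⟩ := hu (Hm L A) (Hm L B) hA.2 hB.2 ((hsize A hA.1).1 hAκ) ((hsize B hB.1).1 hBκ)
    exact exists_ext hA.1 hB.1 f

end Vale.Agent.P307.H431.Lam
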