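import Vale.Agent.P307.Defs

/-!
Laminar structures.
-/

universe u

open FirstOrder Cardinal

namespace Vale.Agent.P307.H431

/-- The vocabulary `L` consists of propositional symbols, unary and binary relation symbols. -/
def BinaryVocabulary (L : Language.{u, u}) : Prop :=
  (∀ n, IsEmpty (L.Functions n)) ∧ ∀ n, 3 ≤ n → IsEmpty (L.Relations n)

/-- The binary relations of `M` are equivalence relations, and any two classes, of the same or of
two different ones of these relations, are disjoint or one of them contains the other. -/
def IsLaminar (L : Language.{u, u}) (M : Type u) [L.Structure M] : Prop :=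
  (∀ E : L.Relations 2, Equivalence fun x y : M => Language.Structure.RelMap E ![x, y]) ∧
  ∀ (E F : L.Relations 2) (x : M),
    (∀ y : M, Language.Structure.RelMap E ![x, y] → Language.Structure.RelMap F ![x, y]) ∨
    ∀ y : M, Language.Structure.RelMap F ![x, y] → Language.Structure.RelMap E ![x, y]

end Vale.Agent.P307.H431
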