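import Vale.Agent.P307.H431.LamD
import Vale.Agent.P307.H431.LamDefs
import Vale.Agent.P307.H67.Main

/-!
Classes of laminar structures.
-/

universe u

open FirstOrder Cardinal Set

namespace Vale.Agent.P307.H431.Lam

open Language Structure Vale.Agent.P307.Gr Vale.Agent.P307.H67

section graph

variable {V : Type u} {G : SimpleGraph V} {κ : Cardinal.{u}} {B : Set V}
  {p : ∀ a b : B, G.Walk a.1 b.1}

lemma exists_avoid (hκ : ℵ₀ ≤ κ) (hB : #B = κ)
    (hp : ∀ a b : B, a ≠ b → (p a b).IsPath ∧ ∀ x ∈ (p a b).support, x ∈ B → x = a.1 ∨ x = b.1)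
    (hq : ∀ a b c d : B, a ≠ b → c ≠ d → s(a, b) ≠ s(c, d) →
      ∀ x ∈ (p a b).support, x ∈ (p c d).support → x ∈ B)
    {a' b' : B} (hab' : a' ≠ b') (S : Set V) (hS : #S < κ) (ha : a'.1 ∉ S) (hb : b'.1 ∉ S) :
    ∃ c : B, ∀ s ∈ S, s ∉ (p a' c).support ∧ s ∉ (p c b').support := by
  by_contra hcon0
  let B' : Set B := {c | c ≠ a' ∧ c ≠ b'}
  have hex : ∀ c : B', ∃ s : S, (s.1 ∈ (p a' c.1).support ∨ s.1 ∈ (p c.1 b').support) := by
    intro c
    by_contra hcon
    push Not at hcon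
    exact hcon0 ⟨c.1, fun s hs => hcon ⟨s, hs⟩⟩
  choose s hs using hex
  have hinj : Function.Injective s := by
    intro c c' hcc
    by_contra hne
    have hne' : c.1 ≠ c'.1 := fun h => hne (Subtype.ext h)
    have hc1 : a' ≠ c.1 := fun h => c.2.1 h.symm
    have hc2 : c.1 ≠ b' := c.2.2
    have hc1' : a' ≠ c'.1 := fun h => c'.2.1 h.symm
    have hc2' : c'.1 ≠ b' := c'.2.2
    have hsa : (s c).1 ≠ a'.1 := fun h => ha (h ▸ (s c).2)
    have hsb : (s c).1 ≠ b'.1 := fun h => hb (h ▸ (s c).2)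
    have hs' := hs c'
    rw [← hcc] at hs'
    have n1 : s(a', c.1) ≠ s(a', c'.1) := by
      rw [Ne, Sym2.eq_iff]
      rintro (⟨-, h⟩ | ⟨h, -⟩)
      · exact hne' h
      · exact hc1' h
    have n2 : s(a', c.1) ≠ s(c'.1, b') := by
      rw [Ne, Sym2.eq_iff]
      rintro (⟨h, -⟩ | ⟨h, -⟩)
      · exact hc1' h
      · exact hab' h
    have n3 : s(c.1, b') ≠ s(a', c'.1) := by
      rw [Ne, Sym2.eq_iff]
      rintro (⟨h, -⟩ | ⟨-, h⟩)
      · exact hc1 h.symm
      · exact hab' h.symm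
    have n4 : s(c.1, b') ≠ s(c'.1, b') := by
      rw [Ne, Sym2.eq_iff]
      rintro (⟨h, -⟩ | ⟨h, -⟩)
      · exact hne' h
      · exact hc2 h
    have hmem : (s c).1 ∈ B := by
      rcases hs c with h3 | h3 <;> rcases hs' with h4 | h4
      · exact hq _ _ _ _ hc1 hc1' n1 _ h3 h4
      · exact hq _ _ _ _ hc1 hc2' n2 _ h3 h4
      · exact hq _ _ _ _ hc2 hc1' n3 _ h3 h4
      · exact hq _ _ _ _ hc2 hc2' n4 _ h3 h4
    have e1 : (s c).1 = c.1.1 := by
      rcases hs c with h3 | h3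
      · exact ((hp _ _ hc1).2 _ h3 hmem).resolve_left hsa
      · exact ((hp _ _ hc2).2 _ h3 hmem).resolve_right hsb
    have e2 : (s c).1 = c'.1.1 := by
      rcases hs' with h3 | h3
      · exact ((hp _ _ hc1').2 _ h3 hmem).resolve_left hsa
      · exact ((hp _ _ hc2').2 _ h3 hmem).resolve_right hsb
    exact hne' (Subtype.ext (e1.symm.trans e2))
  have h3 : #B' ≤ #S := mk_le_of_injective hinj
  have h4 : #B ≤ #B' + #({a', b'} : Set B) := by
    rw [← mk_univ]
    refine (mk_le_mk_of_subset ?_).trans (mk_union_le B' ({a', b'} : Set B))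
    intro c _
    by_cases hc : c = a'
    · exact Or.inr (Or.inl hc)
    · by_cases hc' : c = b'
      · exact Or.inr (Or.inr hc')
      · exact Or.inl ⟨hc, hc'⟩
  have h5 : #({a', b'} : Set B) < ℵ₀ := (Set.toFinite _).lt_aleph0
  have h6 : #B < κ := h4.trans_lt (add_lt_of_lt hκ (h3.trans_lt hS) (h5.trans_le hκ))
  rw [hB] at h6
  exact lt_irrefl _ h6

lemma walk_stay {D S : Set V} (hD : ∀ x y, x ∈ D → G.Adj x y → y ∉ S → y ∈ D) {u v : V}
    (w : G.Walk u v) (hw : ∀ s ∈ S, s ∉ w.support) (hu : u ∈ D) : v ∈ D := by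
  induction w with
  | nil => exact hu
  | @cons u x v h q ih =>
    have h1 : x ∉ S := fun hx => hw x hx (by
      rw [SimpleGraph.Walk.support_cons]
      exact List.mem_cons_of_mem _ q.start_mem_support)
    refine ih (fun s hs hs' => hw s hs ?_) (hD _ _ hu h h1)
    rw [SimpleGraph.Walk.support_cons]
    exact List.mem_cons_of_mem _ hs'

/-- Two branch vertices cannot be separated by few vertices. -/
lemma no_sep (hκ : ℵ₀ ≤ κ) (hB : #B = κ)
    (hp : ∀ a b : B, a ≠ b → (p a b).IsPath ∧ ∀ x ∈ (p a b).support, x ∈ B → x = a.1 ∨ x = b.1)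
    (hq : ∀ a b c d : B, a ≠ b → c ≠ d → s(a, b) ≠ s(c, d) →
      ∀ x ∈ (p a b).support, x ∈ (p c d).support → x ∈ B)
    {a b : B} (S D : Set V) (hS : #S < κ) (ha : a.1 ∉ S) (hb : b.1 ∉ S)
    (haD : a.1 ∈ D) (hbD : b.1 ∉ D) (hD : ∀ x y, x ∈ D → G.Adj x y → y ∉ S → y ∈ D) : False := by
  have hab : a ≠ b := fun h => hbD (h ▸ haD)
  obtain ⟨c, hc⟩ := exists_avoid hκ hB hp hq hab S hS ha hb
  exact hbD (walk_stay hD (p c b) (fun s hs => (hc s hs).2)
    (walk_stay hD (p a c) (fun s hs => (hc s hs).1) haD))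

end graph

variable {L : Language.{u, u}} [L.IsRelational]

omit [L.IsRelational] in
lemma adj_in {N : Type u} [(SL L).Structure N] {x y : N} (h : (gaifmanF (SL L) N).Adj x y) :
    ∃ E : L.Relations 2, In E x y ∨ In E y x := by
  obtain ⟨hne, ⟨n, R, v, hR, hx, hy⟩ | ⟨n, f, v, hx, hy⟩⟩ := h
  · revert v
    refine sr_cases (L := L) (C := fun n R => ∀ v : Fin n → N, RelMap R v → x ∈ Set.range v →
      y ∈ Set.range v → ∃ E : L.Relations 2, In E x y ∨ In E y x) ?_ ?_ ?_ ?_ n R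
    · rintro R v - ⟨i, -⟩
      exact i.elim0
    · rintro R v - ⟨i, rfl⟩ ⟨j, rfl⟩
      exact absurd (by rw [Fin.fin_one_eq_zero i, Fin.fin_one_eq_zero j]) hne
    · rintro R v - ⟨i, rfl⟩ ⟨j, rfl⟩
      exact absurd (by rw [Fin.fin_one_eq_zero i, Fin.fin_one_eq_zero j]) hne
    · rintro E v hv ⟨i, rfl⟩ ⟨j, rfl⟩
      rw [vec2 v] at hv
      have hfin : ∀ k : Fin 2, k = 0 ∨ k = 1 := by decide
      rcases hfin i with rfl | rfl <;> rcases hfin j with rfl | rfl
      · exact absurd rfl hne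
      · exact ⟨E, Or.inl hv⟩
      · exact ⟨E, Or.inr hv⟩
      · exact absurd rfl hne
  · exact PEmpty.elim f

/-- In the structure with points for the classes of a laminar structure there is no large complete
subdivision. -/
theorem no_subdivision_std {N : Type u} [(SL L).Structure N] (hN : Std L N)
    (hlam : IsLaminar L (Hm L N)) {l κ : Cardinal.{u}} (hl : ℵ₀ ≤ l) (hL : L.card ≤ l)
    (hκ : l < κ) : ¬ HasCompleteSubdivision (gaifmanF (SL L) N) κ := by
  classical
  rintro ⟨B, p, hB, hp, hq⟩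
  have hκ0 : ℵ₀ ≤ κ := hl.trans hκ.le
  have hrel : #(L.Relations 2) ≤ l := (card_rel2 L).trans hL
  -- the branch vertices are classes
  have h1 : ∀ b : B, ¬ Home L b.1 := by
    intro a ha
    let S : Set N := {y | ∃ E : L.Relations 2, In E a.1 y}
    have hS : #S ≤ l := by
      have hex : ∀ y : S, ∃ E : L.Relations 2, In E a.1 y.1 := fun y => y.2
      choose g hg using hex
      refine (mk_le_of_injective (f := g) ?_).trans hrel
      intro y z hyz
      have := hg z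
      rw [← hyz] at this
      exact Subtype.ext (hN.un _ _ _ _ (hg y) this)
    obtain ⟨b, hb1, hb2⟩ : ∃ b : B, b ≠ a ∧ b.1 ∉ S := by
      by_contra hcon
      push Not at hcon
      have h2 : #B ≤ #({a.1} ∪ S : Set N) := by
        refine mk_le_mk_of_subset fun x hx => ?_
        by_cases hxa : (⟨x, hx⟩ : B) = a
        · exact Or.inl (congrArg Subtype.val hxa)
        · exact Or.inr (hcon ⟨x, hx⟩ hxa)
      have h3 : #({a.1} ∪ S : Set N) ≤ l := (mk_union_le _ _).trans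
        (add_le_of_le hl (by rw [mk_singleton]; exact one_le_aleph0.trans hl) hS)
      rw [hB] at h2
      exact absurd (h2.trans h3) (not_le.2 hκ)
    refine no_sep hκ0 hB hp hq (a := a) (b := b) S {a.1} (hS.trans_lt hκ) ?_ hb2 rfl ?_ ?_
    · rintro ⟨E, hE⟩
      exact ha E (hN.cl E _ _ hE)
    · intro h
      exact hb1 (Subtype.ext h)
    · rintro x y hx hadj hy
      obtain rfl : x = a.1 := hx
      obtain ⟨E, hE | hE⟩ := adj_in hadj
      · exact absurd ⟨E, hE⟩ hy
      · exact absurd (hN.cl E _ _ hE) (ha E)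
  -- two branch vertices of the same sort
  have h2 : ∀ b : B, ∃ E : L.Relations 2, Cl E b.1 := by
    intro b
    by_contra hcon
    exact h1 b fun E hE => hcon ⟨E, hE⟩
  choose g hg using h2
  have h3 : ¬ Function.Injective g := by
    intro hinj
    have := (mk_le_of_injective hinj).trans hrel
    rw [hB] at this
    exact absurd this (not_le.2 hκ)
  unfold Function.Injective at h3
  push Not at h3
  obtain ⟨a, b, hgab, hab⟩ := h3
  have hEa : Cl (g a) a.1 := hg a
  have hEb : Cl (g a) b.1 := by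
    rw [hgab]
    exact hg b
  generalize g a = E at hEa hEb
  let S : Set N := {c | ∃ F : L.Relations 2, F ≠ E ∧ Cl F c ∧ ∀ x, In E x a.1 → In F x c}
  let D : Set N := {v | In E v a.1 ∨ ∃ F : L.Relations 2, Cl F v ∧ ∀ x, In F x v → In E x a.1}
  obtain ⟨x₀, hx₀⟩ := hN.sur E _ hEa
  obtain ⟨x₁, hx₁⟩ := hN.sur E _ hEb
  have hS : #S ≤ l := by
    have hex : ∀ y : S, ∃ F : L.Relations 2, F ≠ E ∧ Cl F y.1 ∧ ∀ x, In E x a.1 → In F x y.1 :=
      fun y => y.2
    choose f hf1 hf2 hf3 using hex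
    refine (mk_le_of_injective (f := f) ?_).trans hrel
    intro y z hyz
    have := hf3 z x₀ hx₀
    rw [← hyz] at this
    exact Subtype.ext (hN.un _ _ _ _ (hf3 y x₀ hx₀) this)
  refine no_sep hκ0 hB hp hq (a := a) (b := b) S D (hS.trans_lt hκ) ?_ ?_ ?_ ?_ ?_
  · rintro ⟨F, hF1, hF2, -⟩
    exact hF1 (hN.sort F E _ hF2 hEa)
  · rintro ⟨F, hF1, hF2, -⟩
    exact hF1 (hN.sort F E _ hF2 hEb)
  · exact Or.inr ⟨E, hEa, fun x hx => hx⟩
  · rintro (h | ⟨F, hF1, hF2⟩)
    · exact hN.home E _ _ h E hEb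
    · obtain rfl : F = E := hN.sort F E _ hF1 hEb
      exact hab (Subtype.ext (hN.un F _ _ _ (hF2 x₁ hx₁) hx₁))
  · rintro v y hv hadj hy
    obtain ⟨F', hF' | hF'⟩ := adj_in hadj
    · -- `y` is a class of `v`
      have hvh : Home L v := hN.home F' _ _ hF'
      have hvE : In E v a.1 := by
        rcases hv with h | ⟨F, hF1, -⟩
        · exact h
        · exact absurd hF1 (hvh F)
      by_cases hFE : F' = E
      · subst hFE
        rw [← hN.un F' _ _ _ hvE hF']
        exact Or.inr ⟨F', hEa, fun x hx => hx⟩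
      · rcases hlam.2 E F' ⟨v, hvh⟩ with h | h
        · exfalso
          refine hy ⟨F', hFE, hN.cl F' _ _ hF', fun x hx => ?_⟩
          have h4 := h ⟨x, hN.home E _ _ hx⟩ ((hm2 E _ _).2 ⟨a.1, hvE, hx⟩)
          obtain ⟨c, h5, h6⟩ := (hm2 F' _ _).1 h4
          rw [hN.un F' _ _ _ hF' h5]
          exact h6
        · refine Or.inr ⟨F', hN.cl F' _ _ hF', fun x hx => ?_⟩
          have h4 := h ⟨x, hN.home F' _ _ hx⟩ ((hm2 F' _ _).2 ⟨y, hF', hx⟩)
          obtain ⟨c, h5, h6⟩ := (hm2 E _ _).1 h4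
          rw [hN.un E _ _ _ hvE h5]
          exact h6
    · -- `v` is a class of `y`
      rcases hv with h | ⟨F, hF1, hF2⟩
      · exact absurd (hN.cl F' _ _ hF') (hN.home E _ _ h F')
      · obtain rfl : F' = F := hN.sort F' F _ (hN.cl F' _ _ hF') hF1
        exact Or.inl (hF2 y hF')

end Vale.Agent.P307.H431.Lam

namespace Vale.Agent.P307.H431

open Lam Vale.Agent.P307.H67

/-- Shelah's conjecture for the classes of laminar structures. -/
theorem laminar_classes : ∀ l : Cardinal.{u}, ℵ₀ ≤ l → ∃ μ : Cardinal.{u}, l ≤ μ ∧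
    ∀ (L : Language.{u, u}) (K : AEC L), BinaryVocabulary L →
      (∀ (M : Type u) [L.Structure M], K.mem M → IsLaminar L M) → K.LS ≤ l →
      ∀ κ : Cardinal.{u}, μ ≤ κ → K.CategoricalIn κ →
        ∀ κ' : Cardinal.{u}, μ ≤ κ' → K.CategoricalIn κ' := by
  intro l hl
  obtain ⟨μ, h1, h2⟩ := all_vocabularies l hl
  refine ⟨max μ (Order.succ l), h1.trans (le_max_left _ _), ?_⟩
  intro L K hV hlam hK κ hκ hcat κ' hκ'
  have : L.IsRelational := hV.1
  have h3 : ∀ n, IsEmpty (L.Relations (n + 3)) := fun n => hV.2 (n + 3) (by omega)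
  have hE : ∀ (M : Type u) [L.Structure M], K.mem M → EqRel L M := fun M _ hM => (hlam M hM).1
  have hLS : K.IsLS l := AEC.isLS_of_LS_le hK
  have hlκ : l < κ := (Order.lt_succ l).trans_le ((le_max_right _ _).trans hκ)
  have hlκ' : l < κ' := (Order.lt_succ l).trans_le ((le_max_right _ _).trans hκ')
  rw [← star_categorical h3 hE hLS hlκ] at hcat
  rw [← star_categorical h3 hE hLS hlκ']
  refine h2 (SL L) (starAEC K) (star_LS hK) κ ((le_max_left _ _).trans hκ) hcat ?_ κ'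
    ((le_max_left _ _).trans hκ')
  intro N _ hN hNκ
  exact no_subdivision_std hN.1 (hlam _ hN.2) hl hLS.2.1 hlκ

end Vale.Agent.P307.H431
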