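import Vale.Agent.P307.Defs
import Vale.Agent.P307.H304.InfDefs

/-!
Axiomatisation by one sentence, saturation, strong homogeneity.
-/

universe u

open FirstOrder Cardinal

namespace Vale.Agent.P307.H431

open Vale.Agent.P307.H304

/-- Above `θ` the class is the class of the models of one sentence of `L_{∞,θ}`. -/
def AxiomatizedAbove {L : Language.{u, u}} (K : AEC L) (θ : Cardinal.{u}) : Prop :=
  ∃ σ : Fml L θ PEmpty.{u + 1}, ∀ (N : Type u) [L.Structure N], θ ≤ #N →
    (K.mem N ↔ σ.Sat fun x : PEmpty.{u + 1} => (x.elim : N))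

/-- The models of cardinality `θ` are saturated: if `M ≤_K N` have cardinality `θ`, then `N` is
isomorphic to `M` over each subset of `M` of cardinality less than `θ`. -/
def SaturatedIn {L : Language.{u, u}} (K : AEC L) (θ : Cardinal.{u}) : Prop :=
  ∀ (N : Type u) [L.Structure N] (M : L.Substructure N), K.le M → #M = θ → #N = θ →
    ∀ A : Set N, A ⊆ M → #A < θ → ∃ e : N ≃[L] M, ∀ a ∈ A, (e a : N) = a

/-- The models of cardinality `θ` are strongly homogeneous: tuples of length less than `θ` which
satisfy the same formulas of `L_{∞,θ}` correspond under an automorphism. -/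
def HomogeneousIn {L : Language.{u, u}} (K : AEC L) (θ : Cardinal.{u}) : Prop :=
  ∀ (M : Type u) [L.Structure M], K.mem M → #M = θ → ∀ (X : Type u) (v w : X → M), #X < θ →
    (∀ φ : Fml L θ X, φ.Sat v ↔ φ.Sat w) → ∃ e : M ≃[L] M, ∀ x, e (v x) = w x

end Vale.Agent.P307.H431
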