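import Vale.Agent.P307.H304.Kueker

/-!
Scott sentences for `L_{∞,θ}`.
-/

universe u

open FirstOrder Cardinal Set

namespace Vale.Agent.P307.H431

open Vale.Agent.P307.H304

variable {L : Language.{u, u}} {θ : Cardinal.{u}} {M N : Type u} [L.Structure M] [L.Structure N]

/-- Change of the free variables. -/
def ren : {X Y : Type u} → (X → Y) → Fml L θ X → Fml L θ Y
  | _, _, f, .eq s t => .eq (s.relabel f) (t.relabel f)
  | _, _, f, .rel r ts => .rel r fun i => (ts i).relabel f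
  | _, _, f, .not φ => .not (ren f φ)
  | _, _, f, .conj φ => .conj fun i => ren f (φ i)
  | _, _, f, .all hY φ => .all hY (ren (Sum.map f id) φ)

theorem sat_ren {X Y : Type u} (f : X → Y) (φ : Fml L θ X) (v : Y → M) :
    (ren f φ).Sat v ↔ φ.Sat (v ∘ f) := by
  induction φ generalizing Y with
  | eq s t =>
    change (s.relabel f).realize v = (t.relabel f).realize v ↔ _
    rw [Language.Term.realize_relabel, Language.Term.realize_relabel]
    rfl
  | rel r ts =>
    change Language.Structure.RelMap r (fun i => ((ts i).relabel f).realize v) ↔ _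
    simp only [Language.Term.realize_relabel]
    rfl
  | not φ ih => exact not_congr (ih f v)
  | conj φ ih => exact forall_congr' fun i => ih i f v
  | all hY φ ih =>
    refine forall_congr' fun w => ?_
    rw [ih]
    have h : (Sum.elim v w) ∘ (Sum.map f id) = Sum.elim (v ∘ f) w := by
      funext x
      rcases x with x | x <;> rfl
    rw [h]

/-- Truth of an implication. -/
def imp {X : Type u} (φ ψ : Fml L θ X) : Fml L θ X :=
  .not (.conj fun b : ULift.{u} Bool => if b.down then φ else .not ψ)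

theorem sat_imp {X : Type u} (φ ψ : Fml L θ X) (v : X → M) :
    (imp φ ψ).Sat v ↔ (φ.Sat v → ψ.Sat v) := by
  constructor
  · intro h h1
    by_contra h2
    refine h fun b => ?_
    rcases b with ⟨b⟩
    cases b
    · exact h2
    · exact h1
  · intro h h1
    have h2 : φ.Sat v := h1 ⟨true⟩
    have h3 : ¬ ψ.Sat v := h1 ⟨false⟩
    exact h3 (h h2)

/-- Existence of a block. -/
def exb {X Y : Type u} (hY : #Y < θ) (φ : Fml L θ (X ⊕ Y)) : Fml L θ X :=
  .not (.all hY (.not φ))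

theorem sat_exb {X Y : Type u} (hY : #Y < θ) (φ : Fml L θ (X ⊕ Y)) (v : X → M) :
    (exb hY φ).Sat v ↔ ∃ w : Y → M, φ.Sat (Sum.elim v w) := by
  constructor
  · intro h
    by_contra h1
    exact h fun w hw => h1 ⟨w, hw⟩
  · rintro ⟨w, hw⟩ h
    exact h w hw

/-- A disjunction. -/
def disj {X ι : Type u} (φ : ι → Fml L θ X) : Fml L θ X := .not (.conj fun i => .not (φ i))

theorem sat_disj {X ι : Type u} (φ : ι → Fml L θ X) (v : X → M) :
    (disj φ).Sat v ↔ ∃ i, (φ i).Sat v := by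
  constructor
  · intro h
    by_contra h1
    exact h fun i hi => h1 ⟨i, hi⟩
  · rintro ⟨i, hi⟩ h
    exact h i hi

/-- Tuples with the same type. -/
def Same (L : Language.{u, u}) (θ : Cardinal.{u}) {M N : Type u} [L.Structure M] [L.Structure N]
    {X : Type u} (v : X → M) (w : X → N) : Prop :=
  ∀ φ : Fml L θ X, φ.Sat v ↔ φ.Sat w

theorem exists_sep {X : Type u} (v w : X → M) (h : ¬ Same L θ v w) :
    ∃ φ : Fml L θ X, φ.Sat v ∧ ¬ φ.Sat w := by
  by_contra hcon
  refine h fun φ => ⟨fun h1 => ?_, fun h1 => ?_⟩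
  · by_contra h2
    exact hcon ⟨φ, h1, h2⟩
  · by_contra h2
    exact hcon ⟨φ.not, h2, fun h3 => h3 h1⟩

/-- In a fixed structure the types of tuples are described by single formulas, which also contain
the atomic type. -/
theorem exists_iso_fml (M : Type u) [L.Structure M] (X : Type u) (v : X → M) :
    ∃ ψ : Fml L θ X, ψ.Sat v ∧ (∀ w : X → M, ψ.Sat w → Same L θ v w) ∧
      ∀ (N : Type u) [L.Structure N] (w : X → N), ψ.Sat w →
        IsPI L (Set.range (fun x => (v x, w x)) : Set (M × N)) := by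
  classical
  have h1 : ∀ w : X → M, ∃ φ : Fml L θ X, φ.Sat v ∧ (φ.Sat w → Same L θ v w) := by
    intro w
    by_cases h : Same L θ v w
    · exact ⟨.conj (fun i : PEmpty.{u + 1} => i.elim), fun i => i.elim, fun _ => h⟩
    · obtain ⟨φ, h2, h3⟩ := exists_sep v w h
      exact ⟨φ, h2, fun h4 => absurd h4 h3⟩
  choose sep hs1 hs2 using h1
  let lit : Fml L θ X → Fml L θ X := fun φ => if φ.Sat v then φ else φ.not
  have hlit : ∀ φ, (lit φ).Sat v := by
    intro φ
    by_cases h : φ.Sat v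
    · rw [show lit φ = φ from if_pos h]
      exact h
    · rw [show lit φ = φ.not from if_neg h]
      exact h
  have hlit2 : ∀ (φ : Fml L θ X) (N : Type u) [L.Structure N] (w : X → N), (lit φ).Sat w →
      (φ.Sat v ↔ φ.Sat w) := by
    intro φ N _ w hw
    by_cases h : φ.Sat v
    · rw [show lit φ = φ from if_pos h] at hw
      exact ⟨fun _ => hw, fun _ => h⟩
    · rw [show lit φ = φ.not from if_neg h] at hw
      exact ⟨fun h' => absurd h' h, fun h' => absurd h' hw⟩
  let ψ : Fml L θ X := .conj (ι := (X → M) ⊕ ((L.Term X × L.Term X) ⊕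
      (Σ n : ULift.{u} ℕ, L.Relations n.down × (Fin n.down → L.Term X)))) fun i =>
    match i with
    | Sum.inl w => sep w
    | Sum.inr (Sum.inl p) => lit (.eq p.1 p.2)
    | Sum.inr (Sum.inr ⟨_, p⟩) => lit (.rel p.1 p.2)
  refine ⟨ψ, ?_, ?_, ?_⟩
  · rintro (w | (p | ⟨n, p⟩))
    · exact hs1 w
    · exact hlit _
    · exact hlit _
  · intro w hw
    exact hs2 w (hw (Sum.inl w))
  · intro N _ w hw
    have he : ∀ s t : L.Term X, (s.realize v = t.realize v ↔ s.realize w = t.realize w) := by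
      intro s t
      exact hlit2 (.eq s t) N w (hw (Sum.inr (Sum.inl (s, t))))
    have hr : ∀ {n : ℕ} (r : L.Relations n) (ts : Fin n → L.Term X),
        (Language.Structure.RelMap r (fun i => (ts i).realize v) ↔
          Language.Structure.RelMap r (fun i => (ts i).realize w)) := by
      intro n r ts
      exact hlit2 (.rel r ts) N w (hw (Sum.inr (Sum.inr ⟨⟨n⟩, (r, ts)⟩)))
    constructor
    · rintro _ ⟨x, rfl⟩ _ ⟨y, rfl⟩
      exact he (Language.Term.var x) (Language.Term.var y)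
    · rintro n f z hz _ ⟨y, rfl⟩
      choose x hx using hz
      have h1 := he (Language.Term.func f fun i => Language.Term.var (x i)) (Language.Term.var y)
      have h2 : z = fun i => (v (x i), w (x i)) := by
        funext i
        exact (hx i).symm
      rw [h2]
      exact h1
    · rintro n r z hz
      choose x hx using hz
      have h1 := hr r fun i => Language.Term.var (x i)
      have h2 : z = fun i => (v (x i), w (x i)) := by
        funext i
        exact (hx i).symm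
      rw [h2]
      exact h1

/-- Scott sentences: the structures which are `L_{∞,θ}`-equivalent to a given one are the models of
one sentence. -/
theorem exists_scott (M : Type u) [L.Structure M] (hθ : ℵ₀ < θ) (hL : L.card < θ) :
    ∃ σ : Fml L θ PEmpty.{u + 1}, ∀ (N : Type u) [L.Structure N],
      σ.Sat (fun x : PEmpty.{u + 1} => (x.elim : N)) ↔ InfEq L θ M N := by
  classical
  obtain ⟨Θ, hΘ⟩ : ∃ Θ : Type u, #Θ = θ := ⟨θ.out, mk_out θ⟩
  -- the index sets
  let I : Type u := {A : Set Θ // #A < θ}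
  have hrep : ∀ X : Type u, #X < θ → ∃ i : I, Nonempty (X ≃ i.1) := by
    intro X hX
    obtain ⟨A, hA⟩ := le_mk_iff_exists_set.1 (hX.le.trans_eq hΘ.symm)
    exact ⟨⟨A, hA.trans_lt hX⟩, Cardinal.eq.1 hA.symm⟩
  choose rp e using fun X : {X : Type u // #X < θ} => hrep X.1 X.2
  have e' : ∀ X : {X : Type u // #X < θ}, X.1 ≃ (rp X).1 := fun X => (e X).some
  choose ψ hψ1 hψ2 hψ3 using fun (i : I) (v : i.1 → M) =>
    exists_iso_fml (L := L) (θ := θ) M i.1 v
  let Ψ : ∀ X : {X : Type u // #X < θ}, (X.1 → M) → Fml L θ X.1 := fun X v =>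
    ren (e' X).symm (ψ (rp X) (v ∘ (e' X).symm))
  have hΨ : ∀ (X : {X : Type u // #X < θ}) (v : X.1 → M) (N : Type u) [L.Structure N]
      (w : X.1 → N), (Ψ X v).Sat w ↔ (ψ (rp X) (v ∘ (e' X).symm)).Sat (w ∘ (e' X).symm) :=
    fun X v N _ w => sat_ren _ _ _
  have hcomp : ∀ (X : {X : Type u // #X < θ}) {N : Type u} (w : X.1 → N),
      (w ∘ (e' X).symm) ∘ (e' X) = w := by
    intro X N w
    funext x
    simp
  have hΨ1 : ∀ (X : {X : Type u // #X < θ}) (v : X.1 → M), (Ψ X v).Sat v := fun X v =>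
    (hΨ X v M v).2 (hψ1 _ _)
  have hsame : ∀ (X : {X : Type u // #X < θ}) {N : Type u} [L.Structure N] (v : X.1 → M)
      (w : X.1 → N), Same L θ (v ∘ (e' X).symm) (w ∘ (e' X).symm) → Same L θ v w := by
    intro X N _ v w h φ
    have h1 := h (ren (e' X) φ)
    rw [sat_ren, sat_ren, hcomp, hcomp] at h1
    exact h1
  have hΨ2 : ∀ (X : {X : Type u // #X < θ}) (v w : X.1 → M), (Ψ X v).Sat w → Same L θ v w :=
    fun X v w h => hsame X v w (hψ2 _ _ _ ((hΨ X v M w).1 h))
  -- sums of index sets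
  have hsum : ∀ X Y : Type u, #X < θ → #Y < θ → #(X ⊕ Y) < θ := by
    intro X Y hX hY
    rw [mk_sum, lift_id, lift_id]
    exact add_lt_of_lt hθ.le hX hY
  let sm : I → I → {X : Type u // #X < θ} := fun i j => ⟨i.1 ⊕ j.1, hsum _ _ i.2 j.2⟩
  -- the sentence
  let fo : ∀ (i : I) (v : i.1 → M) (j : I) (a : j.1 → M), Fml L θ i.1 := fun i v j a =>
    exb j.2 (Ψ (sm i j) (Sum.elim v a))
  let ba : ∀ (i : I) (v : i.1 → M) (j : I), Fml L θ i.1 := fun i v j =>
    .all j.2 (disj fun a : j.1 → M => Ψ (sm i j) (Sum.elim v a))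
  let body : ∀ (i : I) (v : i.1 → M), Fml L θ i.1 := fun i v =>
    .conj (ι := (Σ j : I, (j.1 → M)) ⊕ I) fun x => match x with
      | Sum.inl ⟨j, a⟩ => fo i v j a
      | Sum.inr j => ba i v j
  let E : {X : Type u // #X < θ} := ⟨PEmpty.{u + 1}, by
    rw [mk_pempty]
    exact aleph0_pos.trans hθ⟩
  let σ : Fml L θ PEmpty.{u + 1} := .conj (ι := PUnit.{u + 1} ⊕ (Σ i : I, (i.1 → M))) fun x =>
    match x with
    | Sum.inl _ => Ψ E (fun x => x.elim)
    | Sum.inr ⟨i, v⟩ => .all i.2 (ren Sum.inr (imp (ψ i v) (body i v)))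
  have hσ : ∀ (N : Type u) [L.Structure N], σ.Sat (fun x : PEmpty.{u + 1} => (x.elim : N)) ↔
      (Ψ E (fun x => x.elim)).Sat (fun x : PEmpty.{u + 1} => (x.elim : N)) ∧
      ∀ (i : I) (v : i.1 → M) (w : i.1 → N), (ψ i v).Sat w →
        (∀ (j : I) (a : j.1 → M), ∃ b : j.1 → N, (Ψ (sm i j) (Sum.elim v a)).Sat (Sum.elim w b)) ∧
        ∀ (j : I) (b : j.1 → N), ∃ a : j.1 → M,
          (Ψ (sm i j) (Sum.elim v a)).Sat (Sum.elim w b) := by
    intro N _
    have hb : ∀ (i : I) (v : i.1 → M) (w : i.1 → N), (body i v).Sat w ↔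
        (∀ (j : I) (a : j.1 → M), ∃ b : j.1 → N, (Ψ (sm i j) (Sum.elim v a)).Sat (Sum.elim w b)) ∧
        ∀ (j : I) (b : j.1 → N), ∃ a : j.1 → M,
          (Ψ (sm i j) (Sum.elim v a)).Sat (Sum.elim w b) := by
      intro i v w
      constructor
      · intro h
        refine ⟨fun j a => ?_, fun j b => ?_⟩
        · exact (sat_exb j.2 _ w).1 (h (Sum.inl ⟨j, a⟩))
        · exact (sat_disj _ _).1 (h (Sum.inr j) b)
      · rintro ⟨h1, h2⟩ (⟨j, a⟩ | j)
        · exact (sat_exb j.2 _ w).2 (h1 j a)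
        · intro b
          exact (sat_disj _ _).2 (h2 j b)
    have hr : ∀ (i : I) (v : i.1 → M), (Fml.all i.2 (ren Sum.inr (imp (ψ i v) (body i v))) :
        Fml L θ PEmpty.{u + 1}).Sat (fun x : PEmpty.{u + 1} => (x.elim : N)) ↔
        ∀ w : i.1 → N, (ψ i v).Sat w → (body i v).Sat w := by
      intro i v
      refine forall_congr' fun w => ?_
      rw [sat_ren, sat_imp]
      rfl
    constructor
    · intro h
      refine ⟨h (Sum.inl PUnit.unit), fun i v w hw => ?_⟩
      exact (hb i v w).1 ((hr i v).1 (h (Sum.inr ⟨i, v⟩)) w hw)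
    · rintro ⟨h1, h2⟩ (_ | ⟨i, v⟩)
      · exact h1
      · exact (hr i v).2 fun w hw => (hb i v w).2 (h2 i v w hw)
  -- the sentence holds in `M`
  have hM : σ.Sat (fun x : PEmpty.{u + 1} => (x.elim : M)) := by
    refine (hσ M).2 ⟨hΨ1 E _, fun i v w hw => ?_⟩
    have h1 : Same L θ v w := hψ2 i v w hw
    refine ⟨fun j a => ?_, fun j b => ?_⟩
    · obtain ⟨b, hb⟩ := exists_sat_extend j.2 h1 a
      exact ⟨b, (hb _).1 (hΨ1 (sm i j) (Sum.elim v a))⟩
    · obtain ⟨a, ha⟩ := exists_sat_extend j.2 (fun φ => (h1 φ).symm) b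
      exact ⟨a, (ha _).2 (hΨ1 (sm i j) (Sum.elim v a))⟩
  refine ⟨σ, fun N _ => ⟨fun hN => ?_, fun h => (h σ).1 hM⟩⟩
  obtain ⟨hN1, hN2⟩ := (hσ N).1 hN
  -- the back-and-forth system
  have hsys : IsSys L θ {R : Set (M × N) | ∃ (X : {X : Type u // #X < θ}) (v : X.1 → M)
      (w : X.1 → N), R = Set.range (fun x => (v x, w x)) ∧ (Ψ X v).Sat w} := by
    have hmove : ∀ (X : {X : Type u // #X < θ}) {N' : Type u} (w : X.1 → N') (x : X.1),
        (w ∘ (e' X).symm) ((e' X) x) = w x := by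
      intro X N' w x
      simp
    constructor
    · rintro _ ⟨X, v, w, rfl, h⟩
      refine (hψ3 _ _ N _ ((hΨ X v N w).1 h)).mono ?_
      rintro _ ⟨x, rfl⟩
      exact ⟨(e' X) x, Prod.ext (hmove X v x) (hmove X w x)⟩
    · rintro _ ⟨X, v, w, rfl, h⟩
      exact mk_range_le.trans_lt X.2
    · rintro _ ⟨X, v, w, rfl, h⟩ A hA
      obtain ⟨j, ⟨g⟩⟩ := hrep A hA
      obtain ⟨b, hb⟩ := (hN2 (rp X) (v ∘ (e' X).symm) (w ∘ (e' X).symm)
        ((hΨ X v N w).1 h)).1 j (fun y => (g.symm y).1)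
      refine ⟨_, ⟨sm (rp X) j, _, _, rfl, hb⟩, ?_, ?_⟩
      · rintro _ ⟨x, rfl⟩
        exact ⟨Sum.inl ((e' X) x), Prod.ext (hmove X v x) (hmove X w x)⟩
      · intro a ha
        refine ⟨b (g ⟨a, ha⟩), Sum.inr (g ⟨a, ha⟩), ?_⟩
        refine Prod.ext ?_ rfl
        change (g.symm (g ⟨a, ha⟩)).1 = a
        rw [g.symm_apply_apply]
    · rintro _ ⟨X, v, w, rfl, h⟩ B hB
      obtain ⟨j, ⟨g⟩⟩ := hrep B hB
      obtain ⟨a, ha⟩ := (hN2 (rp X) (v ∘ (e' X).symm) (w ∘ (e' X).symm)
        ((hΨ X v N w).1 h)).2 j (fun y => (g.symm y).1)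
      refine ⟨_, ⟨sm (rp X) j, _, _, rfl, ha⟩, ?_, ?_⟩
      · rintro _ ⟨x, rfl⟩
        exact ⟨Sum.inl ((e' X) x), Prod.ext (hmove X v x) (hmove X w x)⟩
      · intro b hb
        refine ⟨a (g ⟨b, hb⟩), Sum.inr (g ⟨b, hb⟩), ?_⟩
        refine Prod.ext rfl ?_
        change (g.symm (g ⟨b, hb⟩)).1 = b
        rw [g.symm_apply_apply]
  intro φ
  exact hsys.sat_iff hθ hL φ (R := Set.range fun x : PEmpty.{u + 1} => ((x.elim, x.elim) : M × N))
    ⟨E, _, _, rfl, hN1⟩ E.2 (fun x => x.elim)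

end Vale.Agent.P307.H431
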