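import Vale.Agent.P307.H304.Unif
import Vale.Agent.P307.H431.Karp
import Vale.Agent.P307.H431.SatDefs
import Vale.Agent.P307.H431.Scott

/-!
The uniform club: the class above a member of the club is axiomatised by one sentence, and the
model whose cardinality is a member of cofinality `ω` is saturated and strongly homogeneous.
-/

universe u

open FirstOrder Cardinal Set

namespace Vale.Agent.P307.H431

open Vale.Agent.P307.H304

/-- The uniform club. -/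
theorem uniform_club_saturated (l : Cardinal.{u}) :
    ∃ μ, l ≤ μ ∧ ∃ C : Set Cardinal.{u}, IsClub C ∧
      ∀ (L : Language.{u, u}) (K : AEC L), K.LS ≤ l →
        (∃ κ, μ ≤ κ ∧ κ ^ μ = κ ∧ K.CategoricalIn κ) →
        ∀ θ ∈ C, ((θ.ord.cof = ℵ₀ → K.CategoricalIn θ) ∧
          (∃ (M : Type u) (_ : L.Structure M), K.mem M ∧ #M = θ) ∧
          (∀ (M N : Type u) [L.Structure M] [L.Structure N], K.mem M → θ ≤ #M → θ ≤ #N →
            (K.mem N ↔ InfEq L θ M N)) ∧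
          (∀ (N : Type u) [L.Structure N] (S : L.Substructure N), K.mem N → θ ≤ #S →
            (K.le S ↔ InfElem L θ S))) ∧
          AxiomatizedAbove K θ ∧ (θ.ord.cof = ℵ₀ → SaturatedIn K θ ∧ HomogeneousIn K θ) := by
  obtain ⟨μ, hμ, C, hC, h⟩ := uniform_club_infinitary l
  refine ⟨μ, hμ, {θ | θ ∈ C ∧ max l ℵ₀ < θ}, ?_, fun L K hK hcat θ hθ => ?_⟩
  · constructor
    · rintro d hd ⟨x, hx⟩ - a ha
      exact ⟨hC.isLUB_mem (fun y hy => (hd hy).1) ⟨x, hx⟩ ha, (hd hx).2.trans_le (ha.1 hx)⟩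
    · intro χ
      obtain ⟨θ, h1, h2⟩ := hC.isCofinal (max χ (Order.succ (max l ℵ₀)))
      exact ⟨θ, ⟨h1, (Order.lt_succ _).trans_le ((le_max_right _ _).trans h2)⟩,
        (le_max_left _ _).trans h2⟩
  have hinf := h L K hK hcat θ hθ.1
  have hlθ : l < θ := (le_max_left _ _).trans_lt hθ.2
  have hθ0 : ℵ₀ < θ := (le_max_right _ _).trans_lt hθ.2
  have hLS : K.IsLS (max l ℵ₀) := AEC.isLS_of_LS_le (hK.trans (le_max_left _ _))
  have hLθ : L.card < θ := hLS.2.1.trans_lt hθ.2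
  refine ⟨hinf, ?_, fun hcof => ⟨?_, ?_⟩⟩
  · obtain ⟨-, ⟨M, _, hM, hMθ⟩, h2, -⟩ := hinf
    obtain ⟨σ, hσ⟩ := exists_scott (θ := θ) M hθ0 hLθ
    exact ⟨σ, fun N _ hN => (h2 M N hM hMθ.ge hN).trans (hσ N).symm⟩
  · intro N _ M hM hMθ hNθ A hA hAθ
    have h1 := (hinf.2.2.2 N M (K.mem_of_le _ hM).2 hMθ.ge).1 hM
    obtain ⟨e, he⟩ := exists_equiv_of_sat hθ0.le hcof hNθ hMθ (X := A) hAθ
      (v := fun a : A => (a : N)) (w := fun a : A => (⟨a.1, hA a.2⟩ : M))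
      (fun φ => (h1 A hAθ φ fun a : A => (⟨a.1, hA a.2⟩ : M)).symm)
    exact ⟨e, fun a ha => congrArg Subtype.val (he ⟨a, ha⟩)⟩
  · intro M _ hM hMθ X v w hX hvw
    exact exists_equiv_of_sat hθ0.le hcof hMθ hMθ hX hvw

end Vale.Agent.P307.H431
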